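import Mathlib

/-!
# Harmonic analysis on the biased cube over a finite ground set

A point of the cube over `G` is a subset of `G`.
-/

open Finset

namespace Vale.Agent.P063

variable {α : Type*} [DecidableEq α]

/-- Weight of the point `x` of the cube over `G`. -/
noncomputable def wt (p : ℝ) (G x : Finset α) : ℝ :=
  ∏ i ∈ G, if i ∈ x then p else 1 - p

/-- Expectation over the cube over `G`. -/
noncomputable def Ex (p : ℝ) (G : Finset α) (h : Finset α → ℝ) : ℝ :=
  ∑ x ∈ G.powerset, wt p G x * h x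

/-- The normalisation `√(p(1-p))`. -/
noncomputable def sd (p : ℝ) : ℝ := Real.sqrt (p * (1 - p))

/-- The biased character of one coordinate. -/
noncomputable def chi (p : ℝ) (i : α) (x : Finset α) : ℝ :=
  if i ∈ x then (1 - p) / sd p else -p / sd p

/-- The biased character of a set. -/
noncomputable def phi (p : ℝ) (T x : Finset α) : ℝ := ∏ i ∈ T, chi p i x

/-- The biased Fourier coefficient. -/
noncomputable def coef (p : ℝ) (G : Finset α) (h : Finset α → ℝ) (T : Finset α) : ℝ :=
  Ex p G fun x => h x * phi p T x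

variable {p : ℝ} {G : Finset α}

lemma sd_pos (h0 : 0 < p) (h1 : p < 1) : 0 < sd p :=
  Real.sqrt_pos.2 (mul_pos h0 (by linarith))

lemma sd_sq (h0 : 0 < p) (h1 : p < 1) : sd p ^ 2 = p * (1 - p) :=
  Real.sq_sqrt (mul_pos h0 (by linarith)).le

lemma wt_nonneg (h0 : 0 ≤ p) (h1 : p ≤ 1) (x : Finset α) : 0 ≤ wt p G x :=
  Finset.prod_nonneg fun i _ => by split_ifs <;> linarith

lemma Ex_mono (h0 : 0 ≤ p) (h1 : p ≤ 1) {g h : Finset α → ℝ}
    (hgh : ∀ x, x ⊆ G → g x ≤ h x) : Ex p G g ≤ Ex p G h :=
  Finset.sum_le_sum fun x hx =>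
    mul_le_mul_of_nonneg_left (hgh x (mem_powerset.1 hx)) (wt_nonneg h0 h1 x)

lemma Ex_congr {g h : Finset α → ℝ} (hgh : ∀ x, x ⊆ G → g x = h x) : Ex p G g = Ex p G h :=
  Finset.sum_congr rfl fun x hx => by rw [hgh x (mem_powerset.1 hx)]

lemma Ex_add (g h : Finset α → ℝ) :
    Ex p G (fun x => g x + h x) = Ex p G g + Ex p G h := by
  simp [Ex, mul_add, Finset.sum_add_distrib]

lemma Ex_smul (c : ℝ) (h : Finset α → ℝ) : Ex p G (fun x => c * h x) = c * Ex p G h := by
  simp [Ex, Finset.mul_sum, mul_left_comm]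

lemma Ex_sum {ι : Type*} (s : Finset ι) (h : ι → Finset α → ℝ) :
    Ex p G (fun x => ∑ i ∈ s, h i x) = ∑ i ∈ s, Ex p G (h i) := by
  simp only [Ex, Finset.mul_sum]
  exact Finset.sum_comm

lemma Ex_prod (u v : α → ℝ) :
    Ex p G (fun x => ∏ i ∈ G, if i ∈ x then u i else v i)
      = ∏ i ∈ G, (p * u i + (1 - p) * v i) := by
  rw [Finset.prod_add]
  refine Finset.sum_congr rfl fun x hx => ?_
  have hx' := mem_powerset.1 hx
  rw [wt, ← Finset.prod_mul_distrib, ← Finset.prod_sdiff hx', mul_comm]
  congr 1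
  · exact Finset.prod_congr rfl fun i hi => by simp [hi]
  · exact Finset.prod_congr rfl fun i hi => by simp [(Finset.mem_sdiff.1 hi).2]

lemma Ex_const (c : ℝ) : Ex p G (fun _ : Finset α => c) = c := by
  have h := Ex_prod (p := p) (G := G) (fun _ => (1:ℝ)) (fun _ => (1:ℝ))
  simp only [ite_self, Finset.prod_const_one, mul_one, add_sub_cancel] at h
  have h2 := Ex_smul (p := p) (G := G) c (fun _ => (1:ℝ))
  rw [h] at h2
  simpa using h2

lemma Ex_insert {i : α} (hi : i ∉ G) (h : Finset α → ℝ) :
    Ex p (insert i G) h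
      = (1 - p) * Ex p G h + p * Ex p G (fun x => h (insert i x)) := by
  simp only [Ex]
  rw [Finset.sum_powerset_insert hi, Finset.mul_sum, Finset.mul_sum]
  congr 1 <;> refine Finset.sum_congr rfl fun x hx => ?_
  · have hix : i ∉ x := fun hx' => hi (mem_powerset.1 hx hx')
    simp [wt, Finset.prod_insert hi, hix, mul_assoc]
  · have hw : ∀ j ∈ G, (if j ∈ insert i x then p else 1 - p) = if j ∈ x then p else 1 - p := by
      intro j hj
      have : j ≠ i := fun hji => hi (hji ▸ hj)
      simp [this]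
    simp only [wt, Finset.prod_insert hi, Finset.prod_congr rfl hw, mem_insert_self, if_true]
    ring

lemma chi_mul_exp (h0 : 0 < p) (h1 : p < 1) :
    p * ((1 - p) / sd p) + (1 - p) * (-p / sd p) = 0 ∧
    p * ((1 - p) / sd p) ^ 2 + (1 - p) * (-p / sd p) ^ 2 = 1 := by
  have hs := (sd_pos h0 h1).ne'
  have hq := sd_sq h0 h1
  constructor
  · field_simp
    ring
  · rw [div_pow, div_pow, hq]
    have : p * (1 - p) ≠ 0 := (mul_pos h0 (by linarith)).ne'
    have : (1 - p) ≠ 0 := by linarith
    field_simp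
    ring

lemma phi_orth (h0 : 0 < p) (h1 : p < 1) {S T : Finset α} (hS : S ⊆ G) (hT : T ⊆ G) :
    Ex p G (fun x => phi p S x * phi p T x) = if S = T then 1 else 0 := by
  obtain ⟨m1, m2⟩ := chi_mul_exp h0 h1
  set a : α → ℝ := fun i => (if i ∈ S then (1 - p) / sd p else 1) *
    (if i ∈ T then (1 - p) / sd p else 1) with ha
  set b : α → ℝ := fun i => (if i ∈ S then -p / sd p else 1) *
    (if i ∈ T then -p / sd p else 1) with hb
  have e : Ex p G (fun x => phi p S x * phi p T x)
      = Ex p G (fun x => ∏ i ∈ G, if i ∈ x then a i else b i) := by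
    refine Ex_congr fun x _ => ?_
    have hP : ∀ U ⊆ G, phi p U x = ∏ i ∈ G, if i ∈ U then chi p i x else 1 := by
      intro U hU
      rw [Finset.prod_ite_mem, Finset.inter_eq_right.2 hU]
      rfl
    rw [hP S hS, hP T hT, ← Finset.prod_mul_distrib]
    refine Finset.prod_congr rfl fun i _ => ?_
    by_cases hx : i ∈ x <;> simp [ha, hb, chi, hx]
  rw [e, Ex_prod]
  by_cases hST : S = T
  · rw [if_pos hST]
    refine Finset.prod_eq_one fun i _ => ?_
    by_cases hi : i ∈ T
    · simp only [ha, hb, hST, hi, if_true]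
      linear_combination m2
    · simp [ha, hb, hST, hi]
  · rw [if_neg hST]
    obtain ⟨i, hi⟩ : ∃ i, ¬(i ∈ S ↔ i ∈ T) := by
      by_contra hne
      push Not at hne
      exact hST (Finset.ext hne)
    have hiG : i ∈ G := by
      by_cases hiS : i ∈ S
      · exact hS hiS
      · exact hT (by tauto)
    refine Finset.prod_eq_zero hiG ?_
    by_cases hiS : i ∈ S
    · have hiT : i ∉ T := by tauto
      simp only [ha, hb, hiS, hiT, if_true, if_false]
      linear_combination m1
    · have hiT : i ∈ T := by tauto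
      simp only [ha, hb, hiS, hiT, if_true, if_false]
      linear_combination m1

/-- Inner product of two expansions. -/
lemma Ex_expansion_mul (h0 : 0 < p) (h1 : p < 1) {𝒯 : Finset (Finset α)}
    (h𝒯 : ∀ T ∈ 𝒯, T ⊆ G) (c d : Finset α → ℝ) :
    Ex p G (fun x => (∑ T ∈ 𝒯, c T * phi p T x) * (∑ T ∈ 𝒯, d T * phi p T x))
      = ∑ T ∈ 𝒯, c T * d T := by
  simp only [Finset.sum_mul_sum, Ex_sum]
  refine Finset.sum_congr rfl fun S hS => ?_
  have : ∀ T ∈ 𝒯, Ex p G (fun x => c S * phi p S x * (d T * phi p T x))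
      = if S = T then c S * d T else 0 := by
    intro T hT
    rw [Ex_congr (h := fun x => (c S * d T) * (phi p S x * phi p T x)) (fun x _ => by ring),
      Ex_smul, phi_orth h0 h1 (h𝒯 S hS) (h𝒯 T hT)]
    split_ifs <;> simp
  rw [Finset.sum_congr rfl this, Finset.sum_ite_eq, if_pos hS]

lemma expansion (h0 : 0 < p) (h1 : p < 1) (h : Finset α → ℝ) {x : Finset α} (hx : x ⊆ G) :
    h x = ∑ T ∈ G.powerset, coef p G h T * phi p T x := by
  obtain ⟨m1, m2⟩ := chi_mul_exp h0 h1
  have hs := (sd_pos h0 h1).ne'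
  have hq := sd_sq h0 h1
  have key : ∀ y ∈ G.powerset,
      wt p G y * ∑ T ∈ G.powerset, phi p T x * phi p T y = if y = x then 1 else 0 := by
    intro y hy
    have e : ∑ T ∈ G.powerset, phi p T x * phi p T y
        = ∏ i ∈ G, (1 + chi p i x * chi p i y) := by
      rw [Finset.prod_one_add]
      simp only [phi, Finset.prod_mul_distrib]
    rw [e, wt, ← Finset.prod_mul_distrib]
    by_cases hxy : y = x
    · rw [if_pos hxy, hxy]
      refine Finset.prod_eq_one fun i _ => ?_
      unfold chi
      split_ifs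
      · field_simp
        rw [hq]
        ring
      · field_simp
        rw [hq]
        ring
    · rw [if_neg hxy]
      obtain ⟨i, hi⟩ : ∃ i, ¬(i ∈ y ↔ i ∈ x) := by
        by_contra hne
        push Not at hne
        exact hxy (Finset.ext hne)
      have hiG : i ∈ G := by
        by_cases hiy : i ∈ y
        · exact mem_powerset.1 hy hiy
        · exact hx (by tauto)
      refine Finset.prod_eq_zero hiG ?_
      unfold chi
      by_cases hiy : i ∈ y
      · have hix : i ∉ x := by tauto
        simp only [hiy, hix, if_true, if_false]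
        field_simp
        rw [hq]
        ring
      · have hix : i ∈ x := by tauto
        simp only [hiy, hix, if_true, if_false]
        field_simp
        rw [hq]
        ring
  have : ∑ T ∈ G.powerset, coef p G h T * phi p T x
      = ∑ y ∈ G.powerset, h y * (wt p G y * ∑ T ∈ G.powerset, phi p T x * phi p T y) := by
    simp only [coef, Ex, Finset.sum_mul, Finset.mul_sum]
    rw [Finset.sum_comm]
    exact Finset.sum_congr rfl fun y _ => Finset.sum_congr rfl fun T _ => by ring
  rw [this, Finset.sum_congr rfl fun y hy => by rw [key y hy]]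
  rw [Finset.sum_eq_single x (fun y _ hy => by simp [hy])
    (fun hx' => absurd (mem_powerset.2 hx) hx')]
  simp

lemma parseval (h0 : 0 < p) (h1 : p < 1) (h : Finset α → ℝ) :
    ∑ T ∈ G.powerset, coef p G h T ^ 2 = Ex p G (fun x => h x ^ 2) := by
  rw [Ex_congr (h := fun x => (∑ T ∈ G.powerset, coef p G h T * phi p T x) *
      (∑ T ∈ G.powerset, coef p G h T * phi p T x)) (fun x hx => by
        rw [← expansion h0 h1 h hx]; ring),
    Ex_expansion_mul h0 h1 (fun T hT => mem_powerset.1 hT)]
  exact Finset.sum_congr rfl fun T _ => by ring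

lemma Ex_cauchy (h0 : 0 ≤ p) (h1 : p ≤ 1) (g h : Finset α → ℝ) :
    Ex p G (fun x => g x * h x) ^ 2 ≤ Ex p G (fun x => g x ^ 2) * Ex p G (fun x => h x ^ 2) := by
  refine Finset.sum_sq_le_sum_mul_sum_of_sq_le_mul _
    (fun x _ => mul_nonneg (wt_nonneg h0 h1 x) (sq_nonneg _))
    (fun x _ => mul_nonneg (wt_nonneg h0 h1 x) (sq_nonneg _)) fun x _ => le_of_eq (by ring)

/-- Hypercontractivity of degree at most `d`. -/
lemma hyper (h0 : 0 < p) (h1 : p < 1) (B : ℝ) (hB : 16 / (p * (1 - p)) ≤ B) (G : Finset α) :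
    ∀ (d : ℕ) (c : Finset α → ℝ), (∀ T ⊆ G, d < T.card → c T = 0) →
      Ex p G (fun x => (∑ T ∈ G.powerset, c T * phi p T x) ^ 4)
        ≤ B ^ d * (∑ T ∈ G.powerset, c T ^ 2) ^ 2 := by
  have hs := sd_pos h0 h1
  have hq := sd_sq h0 h1
  have hpq : 0 < p * (1 - p) := mul_pos h0 (by linarith)
  have hpq4 : p * (1 - p) ≤ 1 / 4 := by nlinarith [sq_nonneg (p - 1 / 2)]
  set β := 1 / (p * (1 - p)) with hβ
  have hβ1 : 1 ≤ β := by
    rw [hβ, le_div_iff₀ hpq]
    linarith
  have hBβ : 16 * β ≤ B := by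
    rw [hβ, ← mul_div_assoc, mul_one]
    exact hB
  have hB16 : 16 ≤ B := by linarith
  induction G using Finset.induction_on with
  | empty =>
    intro d c _
    have : (1:ℝ) ≤ B ^ d := one_le_pow₀ (by linarith)
    simp [Ex, wt, phi]
    nlinarith [pow_two_nonneg (c ∅ ^ 2)]
  | @insert i G hi ih =>
    intro d c hc
    set a : Finset α → ℝ := fun x => ∑ T ∈ G.powerset, c T * phi p T x with ha
    set b : Finset α → ℝ := fun x => ∑ T ∈ G.powerset, c (insert i T) * phi p T x with hb
    have hphi : ∀ T ⊆ G, ∀ x, phi p T (insert i x) = phi p T x := by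
      intro T hT x
      refine Finset.prod_congr rfl fun j hj => ?_
      have : j ≠ i := fun hji => hi (hji ▸ hT hj)
      simp [chi, this]
    have hF0 : ∀ x ⊆ G, ∑ T ∈ (insert i G).powerset, c T * phi p T x
        = a x + (-p / sd p) * b x := by
      intro x hx
      rw [Finset.sum_powerset_insert hi, ha, hb, Finset.mul_sum]
      congr 1
      refine Finset.sum_congr rfl fun T hT => ?_
      have hiT : i ∉ T := fun hh => hi (mem_powerset.1 hT hh)
      have hix : i ∉ x := fun hh => hi (hx hh)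
      simp only [phi, Finset.prod_insert hiT, chi, hix, if_false]
      ring
    have hF1 : ∀ x ⊆ G, ∑ T ∈ (insert i G).powerset, c T * phi p T (insert i x)
        = a x + ((1 - p) / sd p) * b x := by
      intro x hx
      rw [Finset.sum_powerset_insert hi, ha, hb, Finset.mul_sum]
      congr 1
      · exact Finset.sum_congr rfl fun T hT => by rw [hphi T (mem_powerset.1 hT) x]
      refine Finset.sum_congr rfl fun T hT => ?_
      have hiT : i ∉ T := fun hh => hi (mem_powerset.1 hT hh)
      have := hphi T (mem_powerset.1 hT) x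
      simp only [phi] at this ⊢
      rw [Finset.prod_insert hiT, this]
      simp only [chi, mem_insert_self, if_true]
      ring
    have hpt : ∀ a b : ℝ, (1 - p) * (a + (-p / sd p) * b) ^ 4 + p * (a + ((1 - p) / sd p) * b) ^ 4
        ≤ a ^ 4 + 8 * (a * b) ^ 2 + 3 * β * b ^ 4 := by
      intro a b
      set m3 := (1 - 2 * p) / sd p with hm3
      set m4 := (1 - 3 * (p * (1 - p))) / (p * (1 - p)) with hm4
      have e : (1 - p) * (a + (-p / sd p) * b) ^ 4 + p * (a + ((1 - p) / sd p) * b) ^ 4
          = a ^ 4 + 6 * (a * b) ^ 2 + 4 * m3 * (a * b ^ 3) + m4 * b ^ 4 := by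
        have hpq' := hpq.ne'
        have hs' := hs.ne'
        have e3 : sd p ^ 3 = sd p * (p * (1 - p)) := by rw [← hq]; ring
        have e4 : sd p ^ 4 = (p * (1 - p)) * (p * (1 - p)) := by rw [← hq]; ring
        have x2 : (-p / sd p) ^ 2 = p / (1 - p) := by
          rw [div_pow, hq, div_eq_div_iff hpq' (by linarith)]; ring
        have y2 : ((1 - p) / sd p) ^ 2 = (1 - p) / p := by
          rw [div_pow, hq, div_eq_div_iff hpq' h0.ne']; ring
        have hq1 : (1 - p) ≠ 0 := by linarith
        calc (1 - p) * (a + (-p / sd p) * b) ^ 4 + p * (a + ((1 - p) / sd p) * b) ^ 4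
            = a ^ 4 * 1 + 4 * a ^ 3 * b * ((1 - p) * (-p / sd p) + p * ((1 - p) / sd p))
              + 6 * a ^ 2 * b ^ 2 * ((1 - p) * (-p / sd p) ^ 2 + p * ((1 - p) / sd p) ^ 2)
              + 4 * a * b ^ 3 * ((1 - p) * ((-p / sd p) ^ 2 * (-p / sd p))
                  + p * (((1 - p) / sd p) ^ 2 * ((1 - p) / sd p)))
              + b ^ 4 * ((1 - p) * ((-p / sd p) ^ 2) ^ 2 + p * (((1 - p) / sd p) ^ 2) ^ 2) := by
              ring
          _ = _ := by
              rw [x2, y2, hm3, hm4]
              field_simp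
              ring
      have h3 : m3 ^ 2 ≤ β := by
        rw [hm3, hβ, div_pow, hq]
        exact div_le_div_of_nonneg_right (by nlinarith) hpq.le
      have h4 : m4 ≤ β := div_le_div_of_nonneg_right (by linarith) hpq.le
      rw [e]
      nlinarith [sq_nonneg (a * b - m3 * b ^ 2), mul_le_mul_of_nonneg_right h3 (by positivity : (0:ℝ) ≤ b ^ 4),
        mul_le_mul_of_nonneg_right h4 (by positivity : (0:ℝ) ≤ b ^ 4)]
    have e1 : Ex p (insert i G) (fun x => (∑ T ∈ (insert i G).powerset, c T * phi p T x) ^ 4)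
        ≤ Ex p G (fun x => a x ^ 4) + 8 * Ex p G (fun x => (a x * b x) ^ 2)
          + 3 * β * Ex p G (fun x => b x ^ 4) := by
      rw [Ex_insert hi, ← Ex_smul, ← Ex_smul, ← Ex_smul, ← Ex_smul, ← Ex_add, ← Ex_add, ← Ex_add]
      refine Ex_mono h0.le h1.le fun x hx => ?_
      rw [hF0 x hx, hF1 x hx]
      exact hpt _ _
    refine e1.trans ?_
    rw [Finset.sum_powerset_insert hi]
    set A := ∑ T ∈ G.powerset, c T ^ 2 with hA
    set Bb := ∑ T ∈ G.powerset, c (insert i T) ^ 2 with hBb
    have hA0 : 0 ≤ A := Finset.sum_nonneg fun _ _ => sq_nonneg _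
    have hB0 : 0 ≤ Bb := Finset.sum_nonneg fun _ _ => sq_nonneg _
    have h4a : Ex p G (fun x => a x ^ 4) ≤ B ^ d * A ^ 2 :=
      ih d c fun T hT hd => hc T (hT.trans (Finset.subset_insert i G)) hd
    rcases d with _ | d
    · have hz : ∀ T ∈ G.powerset, c (insert i T) = 0 := fun T hT =>
        hc _ (Finset.insert_subset_insert i (mem_powerset.1 hT))
          (Finset.card_pos.2 (Finset.insert_nonempty i T))
      have hbz : ∀ x, b x = 0 := fun x => Finset.sum_eq_zero fun T hT => by rw [hz T hT, zero_mul]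
      simp only [hbz, mul_zero, zero_pow two_ne_zero, zero_pow (four_ne_zero (α := ℕ)), Ex_const,
        add_zero, pow_zero, one_mul] at h4a ⊢
      nlinarith
    · have h4b : Ex p G (fun x => b x ^ 4) ≤ B ^ d * Bb ^ 2 :=
        ih d (fun T => c (insert i T)) fun T hT hd => hc _ (Finset.insert_subset_insert i hT) (by
          rw [Finset.card_insert_of_notMem (fun hh => hi (hT hh))]; omega)
      have hcs : Ex p G (fun x => (a x * b x) ^ 2) ^ 2
          ≤ Ex p G (fun x => a x ^ 4) * Ex p G (fun x => b x ^ 4) := by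
        have := Ex_cauchy (G := G) h0.le h1.le (fun x => a x ^ 2) (fun x => b x ^ 2)
        simpa only [mul_pow, ← pow_mul] using this
      have hBd : 0 ≤ B ^ d := by positivity
      have hb4 : 0 ≤ Ex p G (fun x => b x ^ 4) := by
        have := Ex_mono (p := p) (G := G) h0.le h1.le (g := fun _ => (0:ℝ))
          (h := fun x => b x ^ 4) (fun x _ => by positivity)
        rwa [Ex_const] at this
      have hab : Ex p G (fun x => (a x * b x) ^ 2) ≤ B ^ (d + 1) * A * Bb / 4 := by
        refine abs_le_of_sq_le_sq' ?_ (by positivity) |>.2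
        calc _ ≤ _ := hcs
          _ ≤ (B ^ (d + 1) * A ^ 2) * (B ^ d * Bb ^ 2) :=
              mul_le_mul h4a h4b hb4 (by positivity)
          _ ≤ (B ^ (d + 1) * A ^ 2) * (B ^ d * Bb ^ 2) * (B / 16) :=
              le_mul_of_one_le_right (by positivity) (by linarith)
          _ = _ := by ring
      have h3b : 3 * β * Ex p G (fun x => b x ^ 4) ≤ B ^ (d + 1) * Bb ^ 2 := by
        calc _ ≤ 3 * β * (B ^ d * Bb ^ 2) := mul_le_mul_of_nonneg_left h4b (by linarith)
          _ ≤ B * (B ^ d * Bb ^ 2) := mul_le_mul_of_nonneg_right (by linarith) (by positivity)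
          _ = _ := by ring
      have : (A + Bb) ^ 2 * B ^ (d + 1)
          = B ^ (d + 1) * A ^ 2 + 2 * (B ^ (d + 1) * A * Bb) + B ^ (d + 1) * Bb ^ 2 := by ring
      nlinarith

/-- Derivative in the coordinate `i`. -/
noncomputable def deriv1 (p : ℝ) (i : α) (h : Finset α → ℝ) (x : Finset α) : ℝ :=
  sd p * (h (insert i x) - h (x.erase i))

lemma deriv1_expansion (h0 : 0 < p) (h1 : p < 1) {i : α} (hi : i ∈ G) (h : Finset α → ℝ)
    {x : Finset α} (hx : x ⊆ G) :
    deriv1 p i h x
      = ∑ T ∈ (G.erase i).powerset, coef p G h (insert i T) * phi p T x := by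
  have hs := (sd_pos h0 h1).ne'
  have hni : i ∉ G.erase i := Finset.notMem_erase i G
  have hG : insert i (G.erase i) = G := Finset.insert_erase hi
  have hphi : ∀ T ⊆ G.erase i, ∀ y, phi p T (insert i y) = phi p T y ∧
      phi p T (y.erase i) = phi p T y := by
    intro T hT y
    constructor <;> refine Finset.prod_congr rfl fun j hj => ?_ <;>
      have : j ≠ i := fun hji => hni (hji ▸ hT hj) <;> simp [chi, this]
  rw [deriv1, expansion h0 h1 h (Finset.insert_subset hi hx),
    expansion h0 h1 h ((Finset.erase_subset i x).trans hx)]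
  have split : ∀ y, ∑ T ∈ G.powerset, coef p G h T * phi p T y
      = ∑ T ∈ (G.erase i).powerset, coef p G h T * phi p T y
        + ∑ T ∈ (G.erase i).powerset, coef p G h (insert i T) * phi p (insert i T) y := by
    intro y
    rw [← Finset.sum_powerset_insert hni (fun T => coef p G h T * phi p T y), hG]
  rw [split, split, ← Finset.sum_add_distrib, ← Finset.sum_add_distrib, ← Finset.sum_sub_distrib,
    Finset.mul_sum]
  refine Finset.sum_congr rfl fun T hT => ?_
  have hT' := mem_powerset.1 hT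
  have hiT : i ∉ T := fun hh => hni (hT' hh)
  obtain ⟨e1, e2⟩ := hphi T hT' x
  rw [phi, phi] at e1
  rw [phi, phi] at e2
  simp only [phi, Finset.prod_insert hiT]
  rw [e1, e2]
  simp only [chi, mem_insert_self, if_true, Finset.notMem_erase, if_false]
  field_simp
  ring

lemma sum_coef_mem (i : α) (hi : i ∈ G) (c : Finset α → ℝ) :
    ∑ T ∈ (G.erase i).powerset, c (insert i T)
      = ∑ S ∈ G.powerset.filter (fun S => i ∈ S), c S := by
  refine Finset.sum_nbij' (fun T => insert i T) (fun S => S.erase i) ?_ ?_ ?_ ?_ ?_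
  · intro T hT
    simp only [mem_filter, mem_powerset] at hT ⊢
    exact ⟨Finset.insert_subset hi (hT.trans (Finset.erase_subset i G)), mem_insert_self i T⟩
  · intro S hS
    simp only [mem_filter, mem_powerset] at hS ⊢
    exact Finset.erase_subset_erase i hS.1
  · intro T hT
    exact Finset.erase_insert fun hh => Finset.notMem_erase i G (mem_powerset.1 hT hh)
  · intro S hS
    exact Finset.insert_erase (mem_filter.1 hS).2
  · intro T _
    rfl

lemma inf_eq (h0 : 0 < p) (h1 : p < 1) {i : α} (hi : i ∈ G) (h : Finset α → ℝ) :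
    Ex p G (fun x => deriv1 p i h x ^ 2)
      = ∑ S ∈ G.powerset.filter (fun S => i ∈ S), coef p G h S ^ 2 := by
  rw [← sum_coef_mem i hi (fun S => coef p G h S ^ 2),
    Ex_congr (h := fun x => (∑ T ∈ (G.erase i).powerset, coef p G h (insert i T) * phi p T x) *
      (∑ T ∈ (G.erase i).powerset, coef p G h (insert i T) * phi p T x))
      (fun x hx => by rw [deriv1_expansion h0 h1 hi h hx]; ring),
    Ex_expansion_mul h0 h1 (fun T hT => (mem_powerset.1 hT).trans (Finset.erase_subset i G))]
  exact Finset.sum_congr rfl fun T _ => by ring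

/-- The low-degree influence of a Boolean function is small compared with its influence. -/
lemma low_influence_sq (h0 : 0 < p) (h1 : p < 1) {B : ℝ} (hB : 16 / (p * (1 - p)) ≤ B)
    {i : α} (hi : i ∈ G) {g : Finset α → ℝ} (hg : ∀ x, g x = 0 ∨ g x = 1) (K : ℕ) :
    (∑ S ∈ G.powerset.filter (fun S => i ∈ S ∧ S.card ≤ K), coef p G g S ^ 2) ^ 2
      ≤ B ^ (K + 1) *
        (∑ S ∈ G.powerset.filter (fun S => i ∈ S), coef p G g S ^ 2) ^ 3 := by
  have hpq : 0 < p * (1 - p) := mul_pos h0 (by linarith)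
  have hB0 : 0 ≤ B := le_trans (by positivity) hB
  have hq := sd_sq h0 h1
  set u : Finset α → ℝ := fun T => if (insert i T).card ≤ K then coef p G g (insert i T) else 0
    with hu
  set L : Finset α → ℝ := fun x => ∑ T ∈ (G.erase i).powerset, u T * phi p T x with hL
  have ha : Ex p G (fun x => L x * deriv1 p i g x)
      = ∑ S ∈ G.powerset.filter (fun S => i ∈ S ∧ S.card ≤ K), coef p G g S ^ 2 := by
    rw [Ex_congr (h := fun x => (∑ T ∈ (G.erase i).powerset, u T * phi p T x) *
        (∑ T ∈ (G.erase i).powerset, coef p G g (insert i T) * phi p T x))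
        (fun x hx => by rw [deriv1_expansion h0 h1 hi g hx]),
      Ex_expansion_mul h0 h1 (fun T hT => (mem_powerset.1 hT).trans (Finset.erase_subset i G)),
      ← Finset.filter_filter, Finset.sum_filter,
      ← sum_coef_mem i hi (fun S => if S.card ≤ K then coef p G g S ^ 2 else 0)]
    refine Finset.sum_congr rfl fun T _ => ?_
    simp only [hu]
    split_ifs <;> ring
  have hb := inf_eq h0 h1 hi g (G := G)
  set a := ∑ S ∈ G.powerset.filter (fun S => i ∈ S ∧ S.card ≤ K), coef p G g S ^ 2
  set b := ∑ S ∈ G.powerset.filter (fun S => i ∈ S), coef p G g S ^ 2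
  have hu2 : ∑ T ∈ (G.erase i).powerset, u T ^ 2 = a := by
    have : ∑ T ∈ (G.erase i).powerset, u T ^ 2
        = ∑ T ∈ (G.erase i).powerset, u T * coef p G g (insert i T) := by
      refine Finset.sum_congr rfl fun T _ => ?_
      simp only [hu]
      split_ifs <;> ring
    rw [this, ← Ex_expansion_mul h0 h1 (G := G)
      (fun T hT => (mem_powerset.1 hT).trans (Finset.erase_subset i G)), ← ha]
    exact Ex_congr fun x hx => by rw [deriv1_expansion h0 h1 hi g hx]
  have hL4 : Ex p G (fun x => L x ^ 4) ≤ B ^ K * a ^ 2 := by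
    set u' : Finset α → ℝ := fun T => if i ∈ T then 0 else u T with hu'
    have hsub : (G.erase i).powerset ⊆ G.powerset := Finset.powerset_mono.2 (Finset.erase_subset i G)
    have hzero : ∀ T ∈ G.powerset, T ∉ (G.erase i).powerset → i ∈ T := by
      intro T hT hT'
      by_contra hiT
      exact hT' (mem_powerset.2 fun j hj =>
        Finset.mem_erase.2 ⟨fun hji => hiT (hji ▸ hj), mem_powerset.1 hT hj⟩)
    have hmem : ∀ T ∈ (G.erase i).powerset, i ∉ T := fun T hT hh =>
      Finset.notMem_erase i G (mem_powerset.1 hT hh)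
    have e1 : ∀ x, L x = ∑ T ∈ G.powerset, u' T * phi p T x := by
      intro x
      rw [← Finset.sum_subset hsub (fun T hT hT' => by simp [hu', hzero T hT hT'])]
      exact Finset.sum_congr rfl fun T hT => by simp [hu', hmem T hT]
    have e2 : ∑ T ∈ G.powerset, u' T ^ 2 = a := by
      rw [← hu2, ← Finset.sum_subset hsub (fun T hT hT' => by simp [hu', hzero T hT hT'])]
      exact Finset.sum_congr rfl fun T hT => by simp [hu', hmem T hT]
    rw [← e2, Ex_congr fun x _ => by rw [e1 x]]
    refine hyper h0 h1 B hB G K u' fun T hT hd => ?_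
    by_cases hiT : i ∈ T
    · simp [hu', hiT]
    · simp only [hu', hiT, if_false, hu]
      rw [if_neg]
      rw [Finset.card_insert_of_notMem hiT]
      omega
  have hD4 : Ex p G (fun x => deriv1 p i g x ^ 4) = sd p ^ 2 * b := by
    rw [← hb, ← Ex_smul]
    refine Ex_congr fun x _ => ?_
    rcases hg (insert i x) with h | h <;> rcases hg (x.erase i) with h' | h' <;>
      simp only [deriv1, h, h'] <;> ring
  have hC1 : a ^ 2 ≤ Ex p G (fun x => (L x * deriv1 p i g x) ^ 2) / sd p ^ 2 * b := by
    have hi' : ∀ x, deriv1 p i g x * (deriv1 p i g x ^ 2 / sd p ^ 2) = deriv1 p i g x := by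
      intro x
      have := (sd_pos h0 h1).ne'
      rcases hg (insert i x) with h | h <;> rcases hg (x.erase i) with h' | h' <;>
        simp only [deriv1, h, h'] <;> field_simp <;> ring
    have key := Ex_cauchy (G := G) h0.le h1.le (fun x => L x * (deriv1 p i g x ^ 2 / sd p ^ 2))
      (fun x => deriv1 p i g x)
    rw [Ex_congr (h := fun x => L x * deriv1 p i g x)
      (fun x _ => by rw [mul_assoc, mul_comm _ (deriv1 p i g x), hi' x]), ha, hb] at key
    refine key.trans (le_of_eq ?_)
    congr 1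
    rw [div_eq_inv_mul _ (sd p ^ 2), ← Ex_smul]
    refine Ex_congr fun x _ => ?_
    have := (sd_pos h0 h1).ne'
    rcases hg (insert i x) with h | h <;> rcases hg (x.erase i) with h' | h' <;>
      simp only [deriv1, h, h'] <;> field_simp <;> ring
  have hC2 : Ex p G (fun x => (L x * deriv1 p i g x) ^ 2) ^ 2 ≤ B ^ K * a ^ 2 * (sd p ^ 2 * b) := by
    have := Ex_cauchy (G := G) h0.le h1.le (fun x => L x ^ 2) (fun x => deriv1 p i g x ^ 2)
    simp only [← mul_pow, ← pow_mul] at this
    refine this.trans ?_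
    rw [hD4]
    refine mul_le_mul_of_nonneg_right hL4 (mul_nonneg (sq_nonneg _) ?_)
    exact Finset.sum_nonneg fun _ _ => sq_nonneg _
  have hb0 : 0 ≤ b := Finset.sum_nonneg fun _ _ => sq_nonneg _
  rw [hq] at hC1 hC2
  set X := Ex p G (fun x => (L x * deriv1 p i g x) ^ 2)
  have hinv : 1 / (p * (1 - p)) ≤ B := le_trans (by gcongr; norm_num) hB
  rcases eq_or_ne a 0 with ha0 | ha0
  · rw [ha0]
    simpa using mul_nonneg (pow_nonneg hB0 (K + 1)) (pow_nonneg hb0 3)
  have h4 : (a ^ 2) ^ 2 ≤ (X / (p * (1 - p)) * b) ^ 2 := pow_le_pow_left₀ (sq_nonneg a) hC1 2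
  have h5 : (X / (p * (1 - p)) * b) ^ 2 ≤ (B ^ (K + 1) * b ^ 3) * a ^ 2 := by
    calc (X / (p * (1 - p)) * b) ^ 2 = X ^ 2 * b ^ 2 / (p * (1 - p)) ^ 2 := by
          rw [mul_pow, div_pow]
          exact div_mul_eq_mul_div _ _ _
      _ ≤ B ^ K * a ^ 2 * ((p * (1 - p)) * b) * b ^ 2 / (p * (1 - p)) ^ 2 := by gcongr
      _ = (B ^ K * (1 / (p * (1 - p))) * b ^ 3) * a ^ 2 := by field_simp
      _ ≤ (B ^ K * B * b ^ 3) * a ^ 2 := by gcongr
      _ = _ := by ring
  have h6 := h4.trans h5
  rw [sq (a ^ 2)] at h6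
  exact le_of_mul_le_mul_right h6 (by positivity)

end Vale.Agent.P063
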