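import Vale.Agent.P063.Cube

/-!
# Hypergraph facts: orbits, random restrictions and the Margulis–Russo formula
-/

open Finset

namespace Vale.Agent.P063

variable {α : Type*} [DecidableEq α] {p : ℝ} {G : Finset α}

lemma wt_eq {x : Finset α} (hx : x ⊆ G) :
    wt p G x = p ^ x.card * (1 - p) ^ (G.card - x.card) := by
  rw [wt, Finset.prod_ite, Finset.prod_const, Finset.prod_const, Finset.filter_mem_eq_inter,
    Finset.inter_eq_right.2 hx, Finset.filter_notMem_eq_sdiff,
    Finset.card_sdiff_of_subset hx]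

lemma russo (G : Finset α) : ∀ (f : Finset α → ℝ) (p : ℝ), HasDerivAt (fun q => Ex q G f)
    (∑ i ∈ G, Ex p G (fun x => f (insert i x) - f (x.erase i))) p := by
  induction G using Finset.induction_on with
  | empty =>
    intro f p
    have e : (fun q => Ex q (∅ : Finset α) f) = fun _ => f ∅ := by
      funext q
      simp [Ex, wt]
    rw [e, Finset.sum_empty]
    exact hasDerivAt_const p (f ∅)
  | @insert a G ha ih =>
    intro f p
    have e : (fun q => Ex q (insert a G) f)
        = fun q => (1 - q) * Ex q G f + q * Ex q G (fun x => f (insert a x)) := by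
      funext q
      exact Ex_insert ha f
    rw [e]
    have h1 := ((hasDerivAt_id' p).const_sub 1).fun_mul (ih f p)
    have h2 := (hasDerivAt_id' p).fun_mul (ih (fun x => f (insert a x)) p)
    refine (h1.fun_add h2).congr_deriv ?_
    rw [Finset.sum_insert ha]
    have h0 : Ex p (insert a G) (fun x => f (insert a x) - f (x.erase a))
        = Ex p G (fun x => f (insert a x)) - Ex p G f := by
      have hsub : ∀ u v : Finset α → ℝ,
          Ex p G (fun x => u x - v x) = Ex p G u - Ex p G v := by
        intro u v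
        simp [Ex, mul_sub, Finset.sum_sub_distrib]
      have e1 : ∀ x, x ⊆ G → x.erase a = x := fun x hx =>
        Finset.erase_eq_of_notMem fun h => ha (hx h)
      rw [Ex_insert ha, Ex_congr (G := G) (h := fun x => f (insert a x) - f x)
        (fun x hx => by rw [e1 x hx]),
        Ex_congr (G := G) (g := fun x => f (insert a (insert a x)) - f ((insert a x).erase a))
          (h := fun x => f (insert a x) - f x)
        (fun x hx => by
          rw [Finset.insert_idem, Finset.erase_insert fun h => ha (hx h)]), hsub]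
      ring
    have h3 : ∀ i ∈ G, Ex p (insert a G) (fun x => f (insert i x) - f (x.erase i))
        = (1 - p) * Ex p G (fun x => f (insert i x) - f (x.erase i))
          + p * Ex p G (fun x => f (insert a (insert i x)) - f (insert a (x.erase i))) := by
      intro i hi
      have hia : i ≠ a := fun h => ha (h ▸ hi)
      rw [Ex_insert ha]
      congr 2
      refine Ex_congr fun x _ => ?_
      rw [Finset.insert_comm i a, Finset.erase_insert_of_ne hia.symm]
    rw [h0, Finset.sum_congr rfl h3, Finset.sum_add_distrib, ← Finset.mul_sum, ← Finset.mul_sum]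
    ring

lemma sum_card_mul_coef (h0 : 0 < p) (h1 : p < 1) (h : Finset α → ℝ) :
    ∑ T ∈ G.powerset, (T.card : ℝ) * coef p G h T ^ 2
      = ∑ i ∈ G, Ex p G (fun x => deriv1 p i h x ^ 2) := by
  rw [Finset.sum_congr rfl fun i hi => inf_eq h0 h1 hi h]
  rw [Finset.sum_comm' (t' := G.powerset) (s' := fun T => T)]
  · simp
  · intro i T
    simp only [mem_filter, mem_powerset]
    exact ⟨fun hh => ⟨hh.2.2, hh.2.1⟩, fun hh => ⟨hh.2 hh.1, hh.2, hh.1⟩⟩

/-- Total influence equals `p(1-p)` times the derivative, for monotone Boolean functions. -/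
lemma influence_eq_deriv (h0 : 0 < p) (h1 : p < 1) {f : Finset α → ℝ}
    (hf : ∀ x, f x = 0 ∨ f x = 1)
    (hmono : ∀ x, x ⊆ G → ∀ i ∈ G, f (x.erase i) ≤ f (insert i x)) :
    ∑ T ∈ G.powerset, (T.card : ℝ) * coef p G f T ^ 2
      = p * (1 - p) * ∑ i ∈ G, Ex p G (fun x => f (insert i x) - f (x.erase i)) := by
  rw [sum_card_mul_coef h0 h1, Finset.mul_sum]
  refine Finset.sum_congr rfl fun i hi => ?_
  rw [← Ex_smul]
  refine Ex_congr fun x hx => ?_
  have hm := hmono x hx i hi
  rw [deriv1, mul_pow, sd_sq h0 h1]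
  rcases hf (insert i x) with h | h <;> rcases hf (x.erase i) with h' | h' <;>
    rw [h, h'] at hm ⊢ <;> linarith

variable {V : Type*} [Fintype V] [DecidableEq V]

/-- The action of a vertex permutation on hypergraphs. -/
def mapH (σ : Equiv.Perm V) (x : Finset (Finset V)) : Finset (Finset V) :=
  x.image (fun e => e.image σ)

omit [Fintype V] in
lemma image_perm_injective (σ : Equiv.Perm V) :
    Function.Injective (fun e : Finset V => e.image σ) :=
  Finset.image_injective σ.injective

omit [Fintype V] in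
lemma mapH_card (σ : Equiv.Perm V) (x : Finset (Finset V)) : (mapH σ x).card = x.card :=
  Finset.card_image_of_injective x (image_perm_injective σ)

lemma mapH_subset (σ : Equiv.Perm V) {r : ℕ} {x : Finset (Finset V)}
    (hx : x ⊆ univ.powersetCard r) : mapH σ x ⊆ univ.powersetCard r := by
  intro e he
  obtain ⟨e', he', rfl⟩ := Finset.mem_image.1 he
  refine mem_powersetCard.2 ⟨subset_univ _, ?_⟩
  rw [Finset.card_image_of_injective e' σ.injective]
  exact (mem_powersetCard.1 (hx he')).2

omit [Fintype V] in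
lemma mapH_symm (σ : Equiv.Perm V) (x : Finset (Finset V)) : mapH σ.symm (mapH σ x) = x := by
  simp [mapH, Finset.image_image, Function.comp_def]

omit [Fintype V] in
lemma mapH_biUnion (σ : Equiv.Perm V) (x : Finset (Finset V)) :
    (mapH σ x).biUnion id = (x.biUnion id).image σ := by
  rw [mapH, Finset.image_biUnion, Finset.biUnion_image]
  rfl

lemma coef_mapH {r : ℕ} (σ : Equiv.Perm V) {f : Finset (Finset V) → ℝ}
    (hinv : ∀ (τ : Equiv.Perm V), ∀ x ⊆ univ.powersetCard r, f (mapH τ x) = f x)
    (T : Finset (Finset V)) :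
    coef p (univ.powersetCard r) f (mapH σ T) = coef p (univ.powersetCard r) f T := by
  symm
  unfold coef Ex
  refine Finset.sum_nbij' (mapH σ) (mapH σ.symm) ?_ ?_ ?_ ?_ ?_
  · exact fun x hx => mem_powerset.2 (mapH_subset σ (mem_powerset.1 hx))
  · exact fun x hx => mem_powerset.2 (mapH_subset σ.symm (mem_powerset.1 hx))
  · exact fun x _ => mapH_symm σ x
  · exact fun x _ => by simpa using mapH_symm σ.symm x
  · intro x hx
    have hx' := mem_powerset.1 hx
    simp only []
    rw [wt_eq hx', wt_eq (mapH_subset σ hx'), mapH_card, hinv σ x hx']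
    have : phi p (mapH σ T) (mapH σ x) = phi p T x := by
      rw [phi, mapH, Finset.prod_image (image_perm_injective σ).injOn]
      refine Finset.prod_congr rfl fun e _ => ?_
      simp only [chi, mapH, (image_perm_injective σ).mem_finset_image]
    rw [this]

/-- The orbit bound. -/
lemma orbit_bound {r : ℕ} {f : Finset (Finset V) → ℝ} (h0 : 0 < p) (h1 : p < 1)
    (hf : ∀ x, f x = 0 ∨ f x = 1)
    (hinv : ∀ (τ : Equiv.Perm V), ∀ x ⊆ univ.powersetCard r, f (mapH τ x) = f x)
    (S : Finset (Finset V)) (D : ℕ) :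
    ((Fintype.card V).choose (S.biUnion id).card : ℝ) *
      ∑ T ∈ (univ.powersetCard r).powerset.filter (fun T => S ⊆ T ∧ T.card ≤ D),
        coef p (univ.powersetCard r) f T ^ 2 ≤ 2 ^ D := by
  set G : Finset (Finset V) := univ.powersetCard r with hG
  set U := S.biUnion id
  set 𝒰 := (univ : Finset V).powersetCard U.card with h𝒰
  have hperm : ∀ U' ∈ 𝒰, ∃ σ : Equiv.Perm V, U.image σ = U' := by
    intro U' hU'
    have e : {x // x ∈ U} ≃ {x // x ∈ U'} :=
      Finset.equivOfCardEq (mem_powersetCard.1 hU').2.symm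
    refine ⟨e.extendSubtype, Finset.eq_of_subset_of_card_le ?_ ?_⟩
    · intro y hy
      obtain ⟨x, hx, rfl⟩ := Finset.mem_image.1 hy
      exact e.extendSubtype_mem x hx
    · rw [Finset.card_image_of_injective _ (Equiv.injective _), (mem_powersetCard.1 hU').2]
  choose! σ hσ using hperm
  have key : ∀ U' ∈ 𝒰,
      ∑ T ∈ G.powerset.filter (fun T => S ⊆ T ∧ T.card ≤ D), coef p G f T ^ 2
        = ∑ T ∈ G.powerset.filter (fun T => mapH (σ U') S ⊆ T ∧ T.card ≤ D), coef p G f T ^ 2 := by
    intro U' _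
    refine Finset.sum_nbij' (mapH (σ U')) (mapH (σ U').symm) ?_ ?_ ?_ ?_ ?_
    · intro T hT
      simp only [mem_filter, mem_powerset] at hT ⊢
      exact ⟨mapH_subset _ hT.1, Finset.image_subset_image hT.2.1, (mapH_card _ _).trans_le hT.2.2⟩
    · intro T hT
      simp only [mem_filter, mem_powerset] at hT ⊢
      refine ⟨mapH_subset _ hT.1, ?_, (mapH_card _ _).trans_le hT.2.2⟩
      have := Finset.image_subset_image (f := fun e => e.image (σ U').symm) hT.2.1
      rw [← mapH_symm (σ U') S]
      exact this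
    · exact fun T _ => mapH_symm _ T
    · exact fun T _ => by simpa using mapH_symm (σ U').symm T
    · exact fun T _ => by rw [coef_mapH _ hinv]
  have hcard : (𝒰.card : ℝ) = ((Fintype.card V).choose U.card : ℝ) := by
    rw [h𝒰, Finset.card_powersetCard, Finset.card_univ]
  rw [← hcard, ← nsmul_eq_mul, ← Finset.sum_const, Finset.sum_congr rfl key]
  rw [Finset.sum_comm' (t' := G.powerset.filter (fun T => T.card ≤ D))
    (s' := fun T => 𝒰.filter (fun U' => mapH (σ U') S ⊆ T))]
  · have hcnt : ∀ T ∈ G.powerset.filter (fun T => T.card ≤ D),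
        ∑ _U' ∈ 𝒰.filter (fun U' => mapH (σ U') S ⊆ T), coef p G f T ^ 2
          ≤ (2:ℝ) ^ D * coef p G f T ^ 2 := by
      intro T hT
      rw [Finset.sum_const, nsmul_eq_mul]
      refine mul_le_mul_of_nonneg_right ?_ (sq_nonneg _)
      have h2 : (𝒰.filter (fun U' => mapH (σ U') S ⊆ T)).card ≤ T.powerset.card := by
        refine Finset.card_le_card_of_injOn (fun U' => mapH (σ U') S)
          (fun U' hU' => mem_powerset.2 (mem_filter.1 hU').2) ?_
        intro U1 h1' U2 h2' heq
        have := congrArg (fun x => x.biUnion id) heq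
        simp only [mapH_biUnion] at this
        rwa [hσ U1 (mem_filter.1 h1').1, hσ U2 (mem_filter.1 h2').1] at this
      rw [Finset.card_powerset] at h2
      calc _ ≤ (2:ℝ) ^ T.card := by exact_mod_cast h2
        _ ≤ 2 ^ D := pow_le_pow_right₀ (by norm_num) (mem_filter.1 hT).2
    refine (Finset.sum_le_sum hcnt).trans ?_
    rw [← Finset.mul_sum]
    refine mul_le_of_le_one_right (by positivity) ?_
    calc _ ≤ ∑ T ∈ G.powerset, coef p G f T ^ 2 :=
          Finset.sum_le_sum_of_subset_of_nonneg (filter_subset _ _) fun _ _ _ => sq_nonneg _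
      _ = Ex p G (fun x => f x ^ 2) := parseval h0 h1 f
      _ ≤ Ex p G (fun _ => (1:ℝ)) := Ex_mono h0.le h1.le fun y _ => by
          rcases hf y with hy | hy <;> simp [hy]
      _ = 1 := Ex_const 1
  · intro U' T
    simp only [mem_filter]
    tauto

/-- A random restriction keeps many vertices with positive probability. -/
lemma good_prob {r : ℕ} (hr : 1 ≤ r) {T : Finset (Finset V)} (hT : T ⊆ univ.powersetCard r)
    {L k : ℝ} (hk : 1 ≤ k) (hkL : k ≤ L) (hTL : L ≤ T.card) (hTU : (T.card : ℝ) ≤ 2 * L)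
    (hsmall : ∀ h : ℕ, (h : ℝ) < k → 2 * (h : ℝ) ^ r ≤ L) :
    1 / (1600 * (r : ℝ) ^ 2) ≤ Ex (k / L) (univ.powersetCard r) (fun x =>
      if (T ∩ x).card ≤ ⌈96 * r * k⌉₊ ∧ k / 8 < (((T ∩ x).biUnion id).card : ℝ)
      then 1 else 0) := by
  set G : Finset (Finset V) := univ.powersetCard r with hG
  set ρ := k / L with hρ
  have hL : 0 < L := by linarith
  have hρ0 : 0 ≤ ρ := by positivity
  have hρ1 : ρ ≤ 1 := (div_le_one hL).2 hkL
  have hρL : ρ * L = k := by rw [hρ]; field_simp
  have hr1 : (1:ℝ) ≤ r := by exact_mod_cast hr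
  have hmiss : ∀ D ⊆ G, Ex ρ G (fun x => if Disjoint D x then (1:ℝ) else 0)
      = (1 - ρ) ^ D.card := by
    intro D hD
    have := Ex_prod (p := ρ) (G := G) (fun i => if i ∈ D then (0:ℝ) else 1) (fun _ => 1)
    convert this using 1
    · refine Ex_congr fun x _ => ?_
      by_cases h : Disjoint D x
      · rw [if_pos h, Finset.prod_eq_one]
        intro i _
        split_ifs with h1 h2
        · exact absurd h1 (Finset.disjoint_left.1 h h2)
        all_goals rfl
      · rw [if_neg h]
        obtain ⟨i, hiD, hix⟩ := Finset.not_disjoint_iff.1 h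
        exact (Finset.prod_eq_zero (hD hiD) (by simp [hiD, hix])).symm
    · have : ∀ i ∈ G, ρ * (if i ∈ D then (0:ℝ) else 1) + (1 - ρ) * 1
          = if i ∈ D then 1 - ρ else 1 := fun i _ => by split_ifs <;> ring
      rw [Finset.prod_congr rfl this, Finset.prod_ite_mem, Finset.inter_eq_right.2 hD,
        Finset.prod_const]
  have hhit : ∀ D ⊆ G, Ex ρ G (fun x => if D ⊆ x then (1:ℝ) else 0) = ρ ^ D.card := by
    intro D hD
    have := Ex_prod (p := ρ) (G := G) (fun _ => (1:ℝ)) (fun i => if i ∈ D then 0 else 1)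
    convert this using 1
    · refine Ex_congr fun x _ => ?_
      by_cases h : D ⊆ x
      · rw [if_pos h, Finset.prod_eq_one]
        intro i _
        split_ifs with h1 h2
        · rfl
        · exact absurd (h h2) h1
        · rfl
      · rw [if_neg h]
        obtain ⟨i, hiD, hix⟩ := Finset.not_subset.1 h
        exact (Finset.prod_eq_zero (hD hiD) (by simp [hiD, hix])).symm
    · have : ∀ i ∈ G, ρ * 1 + (1 - ρ) * (if i ∈ D then (0:ℝ) else 1)
          = if i ∈ D then ρ else 1 := fun i _ => by split_ifs <;> ring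
      rw [Finset.prod_congr rfl this, Finset.prod_ite_mem, Finset.inter_eq_right.2 hD,
        Finset.prod_const]
  set deg : V → ℕ := fun u => (T.filter (fun e => u ∈ e)).card with hdeg
  set vS : Finset (Finset V) → ℝ := fun x => (((T ∩ x).biUnion id).card : ℝ) with hvS
  have hEv : Ex ρ G vS = ∑ u, (1 - (1 - ρ) ^ deg u) := by
    have e : ∀ x, vS x
        = ∑ u, ((1:ℝ) + (-1) * if Disjoint (T.filter (fun e => u ∈ e)) x then (1:ℝ) else 0) := by
      intro x
      have : ∀ u, ((1:ℝ) + (-1) * if Disjoint (T.filter (fun e => u ∈ e)) x then (1:ℝ) else 0)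
          = if u ∈ (T ∩ x).biUnion id then 1 else 0 := by
        intro u
        by_cases h : u ∈ (T ∩ x).biUnion id
        · obtain ⟨e, he, hue⟩ := mem_biUnion.1 h
          rw [if_pos h, if_neg]
          · ring
          · exact Finset.not_disjoint_iff.2
              ⟨e, mem_filter.2 ⟨(mem_inter.1 he).1, hue⟩, (mem_inter.1 he).2⟩
        · rw [if_neg h, if_pos]
          · ring
          · refine Finset.disjoint_left.2 fun e he hex => h ?_
            exact mem_biUnion.2 ⟨e, mem_inter.2 ⟨(mem_filter.1 he).1, hex⟩, (mem_filter.1 he).2⟩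
      rw [Finset.sum_congr rfl fun u _ => this u, Finset.sum_ite_mem, Finset.univ_inter]
      simp [hvS]
    rw [Ex_congr fun x _ => e x, Ex_sum]
    refine Finset.sum_congr rfl fun u _ => ?_
    rw [Ex_add, Ex_smul, Ex_const, hmiss _ ((filter_subset _ _).trans hT)]
    ring
  have hcov : k / 4 ≤ Ex ρ G vS := by
    rw [hEv]
    have hbase : ∀ m : ℕ, ρ * m / (1 + ρ * m) ≤ 1 - (1 - ρ) ^ m := by
      intro m
      have hb : (1 - ρ) ^ m * (1 + ρ * m) ≤ 1 := by
        calc (1 - ρ) ^ m * (1 + ρ * m) ≤ (1 - ρ) ^ m * (1 + ρ) ^ m := by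
              refine mul_le_mul_of_nonneg_left ?_ (pow_nonneg (by linarith) m)
              have := one_add_mul_le_pow (a := ρ) (by linarith) m
              linarith
          _ = (1 - ρ * ρ) ^ m := by rw [← mul_pow]; ring
          _ ≤ 1 := pow_le_one₀ (by nlinarith) (by nlinarith)
      have hpos : 0 < 1 + ρ * (m:ℝ) := by positivity
      rw [div_le_iff₀ hpos]
      nlinarith
    have hnn : ∀ u, (0:ℝ) ≤ 1 - (1 - ρ) ^ deg u := fun u =>
      le_trans (by positivity) (hbase (deg u))
    set H := (univ : Finset V).filter (fun u => 1 ≤ ρ * deg u) with hH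
    have hhigh : ∀ u ∈ H, (1:ℝ) / 2 ≤ 1 - (1 - ρ) ^ deg u := by
      intro u hu
      refine le_trans ?_ (hbase _)
      have := (mem_filter.1 hu).2
      rw [div_le_div_iff₀ (by norm_num) (by linarith)]
      linarith
    by_cases hc : k ≤ H.card
    · calc k / 4 ≤ ∑ _u ∈ H, (1:ℝ) / 2 := by
            rw [Finset.sum_const, nsmul_eq_mul]
            linarith
        _ ≤ ∑ u ∈ H, (1 - (1 - ρ) ^ deg u) := Finset.sum_le_sum hhigh
        _ ≤ _ := Finset.sum_le_sum_of_subset_of_nonneg (subset_univ _) fun u _ _ => hnn u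
    · have hin : ((T.filter (fun e => e ⊆ H)).card : ℝ) ≤ (H.card : ℝ) ^ r := by
        have h1 : (T.filter (fun e => e ⊆ H)).card ≤ (H.powersetCard r).card :=
          Finset.card_le_card fun e he => mem_powersetCard.2
            ⟨(mem_filter.1 he).2, (mem_powersetCard.1 (hT (mem_filter.1 he).1)).2⟩
        rw [Finset.card_powersetCard] at h1
        exact_mod_cast h1.trans (Nat.choose_le_pow _ _)
      have hsum : (T.filter (fun e => ¬ e ⊆ H)).card ≤ ∑ u ∈ univ \ H, deg u := by
        refine (Finset.card_le_card (t := (univ \ H).biUnion fun u => T.filter (fun e => u ∈ e)) ?_).trans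
          Finset.card_biUnion_le
        intro e he
        obtain ⟨heT, heH⟩ := mem_filter.1 he
        obtain ⟨u, hue, huH⟩ := Finset.not_subset.1 heH
        exact mem_biUnion.2 ⟨u, mem_sdiff.2 ⟨mem_univ u, huH⟩, mem_filter.2 ⟨heT, hue⟩⟩
      have htot : (T.card : ℝ) = (T.filter (fun e => e ⊆ H)).card
          + (T.filter (fun e => ¬ e ⊆ H)).card := by
        exact_mod_cast (Finset.card_filter_add_card_filter_not (fun e => e ⊆ H)).symm
      have hsumR : ((T.filter (fun e => ¬ e ⊆ H)).card : ℝ) ≤ ∑ u ∈ univ \ H, (deg u : ℝ) := by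
        exact_mod_cast hsum
      have hh := hsmall H.card (not_le.1 hc)
      have hlow : L / 2 ≤ ∑ u ∈ univ \ H, (deg u : ℝ) := by linarith
      calc k / 4 = ρ / 2 * (L / 2) := by rw [← hρL]; ring
        _ ≤ ρ / 2 * ∑ u ∈ univ \ H, (deg u : ℝ) := mul_le_mul_of_nonneg_left hlow (by positivity)
        _ ≤ ∑ u ∈ univ \ H, (1 - (1 - ρ) ^ deg u) := by
            rw [Finset.mul_sum]
            refine Finset.sum_le_sum fun u hu => le_trans ?_ (hbase _)
            have hlt : ρ * deg u < 1 := not_le.1 fun h =>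
              (mem_sdiff.1 hu).2 (mem_filter.2 ⟨mem_univ u, h⟩)
            have hd0 : 0 ≤ ρ * (deg u : ℝ) := by positivity
            rw [show ρ / 2 * (deg u : ℝ) = ρ * deg u / 2 by ring,
              div_le_div_iff₀ (by norm_num) (by linarith)]
            nlinarith
        _ ≤ _ := Finset.sum_le_sum_of_subset_of_nonneg sdiff_subset fun u _ _ => hnn u
  have hE2 : Ex ρ G (fun x => ((T ∩ x).card : ℝ) ^ 2) ≤ 6 * k ^ 2 := by
    have e : ∀ x, ((T ∩ x).card : ℝ) ^ 2
        = ∑ i ∈ T, ∑ j ∈ T, if ({i, j} : Finset (Finset V)) ⊆ x then (1:ℝ) else 0 := by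
      intro x
      have hc : ((T ∩ x).card : ℝ) = ∑ i ∈ T, if i ∈ x then (1:ℝ) else 0 := by
        rw [Finset.sum_ite_mem, Finset.sum_const, nsmul_eq_mul, mul_one]
      rw [hc, sq, Finset.sum_mul_sum]
      refine Finset.sum_congr rfl fun i _ => Finset.sum_congr rfl fun j _ => ?_
      by_cases hi : i ∈ x <;> by_cases hj : j ∈ x <;>
        simp [Finset.insert_subset_iff, hi, hj]
    rw [Ex_congr fun x _ => e x, Ex_sum]
    have hpair : ∀ i ∈ T, ∀ j ∈ T,
        Ex ρ G (fun x => if ({i, j} : Finset (Finset V)) ⊆ x then (1:ℝ) else 0)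
          ≤ ρ ^ 2 + if i = j then ρ else 0 := by
      intro i hi j hj
      rw [hhit _ (Finset.insert_subset (hT hi) (Finset.singleton_subset_iff.2 (hT hj)))]
      by_cases hij : i = j
      · rw [if_pos hij, hij]
        simp
        positivity
      · rw [if_neg hij, Finset.card_pair hij]
        simp
    calc ∑ i ∈ T, Ex ρ G (fun x => ∑ j ∈ T,
          if ({i, j} : Finset (Finset V)) ⊆ x then (1:ℝ) else 0)
        ≤ ∑ i ∈ T, ∑ j ∈ T, (ρ ^ 2 + if i = j then ρ else 0) := by
          refine Finset.sum_le_sum fun i hi => ?_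
          rw [Ex_sum]
          exact Finset.sum_le_sum (hpair i hi)
      _ = (ρ * T.card) ^ 2 + ρ * T.card := by
          simp only [Finset.sum_add_distrib, Finset.sum_const, nsmul_eq_mul, Finset.sum_ite_eq]
          rw [Finset.sum_congr rfl fun i hi => if_pos hi, Finset.sum_const, nsmul_eq_mul]
          ring
      _ ≤ 6 * k ^ 2 := by
          have h1 : ρ * T.card ≤ 2 * k := by
            rw [← hρL]
            nlinarith
          have h2 : 0 ≤ ρ * (T.card : ℝ) := by positivity
          nlinarith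
  set K := ⌈96 * r * k⌉₊ with hK
  set P := Ex ρ G (fun x =>
      if (T ∩ x).card ≤ K ∧ k / 8 < (((T ∩ x).biUnion id).card : ℝ) then (1:ℝ) else 0)
  have hbound : Ex ρ G vS ≤ k / 8 + (r : ℝ) * K * P + 1 / (96 * k) * (6 * k ^ 2) := by
    refine le_trans (Ex_mono hρ0 hρ1 (h := fun x => (k / 8 + (r : ℝ) * K *
      if (T ∩ x).card ≤ K ∧ k / 8 < (((T ∩ x).biUnion id).card : ℝ) then (1:ℝ) else 0)
        + 1 / (96 * k) * ((T ∩ x).card : ℝ) ^ 2) fun x _ => ?_) ?_
    · have hv : vS x ≤ r * (T ∩ x).card := by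
        have := Finset.card_biUnion_le_card_mul (T ∩ x) id r fun e he =>
          (mem_powersetCard.1 (hT (mem_inter.1 he).1)).2.le
        have h' : (((T ∩ x).biUnion id).card : ℝ) ≤ (((T ∩ x).card * r : ℕ) : ℝ) := by
          exact_mod_cast this
        push_cast at h'
        simp only [hvS]
        linarith
      have h2 : 0 ≤ 1 / (96 * k) * ((T ∩ x).card : ℝ) ^ 2 := by positivity
      have h3 : (0:ℝ) ≤ r * K := by positivity
      by_cases hs : (T ∩ x).card ≤ K
      · have hs' : ((T ∩ x).card : ℝ) ≤ K := by exact_mod_cast hs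
        by_cases hv8 : k / 8 < vS x
        · rw [if_pos ⟨hs, hv8⟩]
          have := mul_le_mul_of_nonneg_left hs' (by linarith : (0:ℝ) ≤ r)
          linarith
        · rw [if_neg fun h => hv8 h.2]
          linarith
      · rw [if_neg fun h => hs h.1]
        have hs' : 96 * r * k ≤ ((T ∩ x).card : ℝ) :=
          (Nat.le_ceil _).trans (Nat.cast_le.2 (not_le.1 hs).le)
        have : (r : ℝ) * (T ∩ x).card ≤ 1 / (96 * k) * ((T ∩ x).card : ℝ) ^ 2 := by
          rw [div_mul_eq_mul_div, one_mul, le_div_iff₀ (by positivity)]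
          nlinarith [mul_le_mul_of_nonneg_right hs' (Nat.cast_nonneg (T ∩ x).card)]
        linarith
    · simp only [Ex_add, Ex_smul, Ex_const]
      have h9 := mul_le_mul_of_nonneg_left hE2 (by positivity : (0:ℝ) ≤ 1 / (96 * k))
      linarith
  have h6 : 1 / (96 * k) * (6 * k ^ 2) = k / 16 := by field_simp; ring
  have hKle : (K : ℝ) ≤ 97 * r * k := by
    have := Nat.ceil_lt_add_one (show (0:ℝ) ≤ 96 * r * k by positivity)
    nlinarith
  have hP0 : 0 ≤ P := by
    have := Ex_mono (G := G) hρ0 hρ1 (g := fun _ => (0:ℝ)) (h := fun x =>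
      if (T ∩ x).card ≤ K ∧ k / 8 < (((T ∩ x).biUnion id).card : ℝ) then (1:ℝ) else 0)
      (fun x _ => by split_ifs <;> norm_num)
    rwa [Ex_const] at this
  have h10 : k / 16 ≤ 97 * (r:ℝ) ^ 2 * k * P := by
    have := mul_le_mul_of_nonneg_right (mul_le_mul_of_nonneg_left hKle (by linarith : (0:ℝ) ≤ r)) hP0
    nlinarith
  rw [div_le_iff₀ (by positivity)]
  have h11 : k * (1 / 16) ≤ k * (97 * (r:ℝ) ^ 2 * P) := by linarith
  have h12 := le_of_mul_le_mul_left h11 (by linarith)
  nlinarith

end Vale.Agent.P063
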