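import Vale.Agent.P063.Cube

/-!
# The junta bound for a restricted Boolean function
-/

open Finset

namespace Vale.Agent.P063

variable {α : Type*} [DecidableEq α] {p : ℝ} {G J : Finset α}

lemma sum_split (hJ : J ⊆ G) (F : Finset α → ℝ) :
    ∑ T ∈ G.powerset, F T = ∑ S ∈ J.powerset, ∑ U ∈ (G \ J).powerset, F (U ∪ S) := by
  rw [← Finset.sum_product' (f := fun S U => F (U ∪ S))]
  refine Finset.sum_nbij' (fun T => (T ∩ J, T \ J)) (fun z => z.2 ∪ z.1) ?_ ?_ ?_ ?_ ?_
  · intro T hT
    simp only [mem_product, mem_powerset] at hT ⊢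
    exact ⟨inter_subset_right, sdiff_subset_sdiff hT (subset_refl J)⟩
  · intro z hz
    simp only [mem_product, mem_powerset] at hz ⊢
    exact union_subset (hz.2.trans sdiff_subset) (hz.1.trans hJ)
  · intro T _
    exact sdiff_union_inter T J
  · intro z hz
    simp only [mem_product, mem_powerset] at hz
    refine Prod.ext ?_ ?_ <;> ext i <;> have h1 := @hz.1 i <;> have h2 := @hz.2 i <;>
      simp only [mem_inter, mem_union, mem_sdiff] at h2 ⊢ <;> tauto
  · intro T _
    simp [sdiff_union_inter]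

lemma split_inter {S U : Finset α} (hS : S ⊆ J) (hU : U ⊆ G \ J) : (U ∪ S) ∩ J = S := by
  ext i
  have h1 := @hS i
  have h2 := @hU i
  simp only [mem_inter, mem_union, mem_sdiff] at h2 ⊢
  tauto

lemma card_small_subsets_le (s : Finset α) (K : ℕ) :
    (s.powerset.filter (fun S => S.card ≤ K)).card ≤ (s.card + 1) ^ K := by
  have e : s.powerset.filter (fun S => S.card ≤ K)
      ⊆ (Finset.range (K + 1)).biUnion (fun k => s.powersetCard k) := by
    intro S hS
    simp only [mem_filter, mem_powerset] at hS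
    exact mem_biUnion.2 ⟨S.card, mem_range.2 (by omega), mem_powersetCard.2 ⟨hS.1, rfl⟩⟩
  calc _ ≤ _ := Finset.card_le_card e
    _ ≤ ∑ k ∈ Finset.range (K + 1), (s.powersetCard k).card := Finset.card_biUnion_le
    _ ≤ ∑ k ∈ Finset.range (K + 1), s.card ^ k * 1 ^ (K - k) * K.choose k := by
        refine Finset.sum_le_sum fun k hk => ?_
        rw [Finset.card_powersetCard, one_pow, mul_one]
        exact (Nat.choose_le_pow _ k).trans
          (Nat.le_mul_of_pos_right _ (Nat.choose_pos (Nat.lt_succ_iff.1 (mem_range.1 hk))))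
    _ = _ := (add_pow s.card 1 K).symm

lemma inner_le {ι : Type*} [DecidableEq ι] {s Z : Finset ι} (hZ : Z ⊆ s) (A g wgt : ι → ℝ)
    {t w M θ : ℝ} (ht : 0 < t) (hw : 0 < w) (hM : (Z.card : ℝ) ≤ M)
    (hg : ∑ i ∈ s, g i ^ 2 ≤ 1) (hA : ∀ i ∈ s, i ∉ Z → A i * g i = 0 ∨ i ∈ s)
    (hrest : ∀ F : Finset ι, F ⊆ s \ Z → (∀ i ∈ F, A i ≠ 0) →
      ∑ i ∈ F, g i ^ 2 ≤ θ * ∑ i ∈ s, wgt i * g i ^ 2) :
    ∑ i ∈ s, A i * g i ≤ 1 / (2 * t) * (w / 2 * M + 1 / (2 * w) * ∑ i ∈ s, A i ^ 4) + t / 2
      + (1 / 2) * ∑ i ∈ s, A i ^ 2 + θ / 2 * ∑ i ∈ s, wgt i * g i ^ 2 := by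
  clear hA
  rw [← Finset.sum_sdiff hZ]
  have h1 : ∑ i ∈ Z, A i * g i ≤ 1 / (2 * t) * ∑ i ∈ Z, A i ^ 2 + t / 2 := by
    have : ∑ i ∈ Z, A i * g i ≤ ∑ i ∈ Z, (1 / (2 * t) * A i ^ 2 + t / 2 * g i ^ 2) := by
      refine Finset.sum_le_sum fun i _ => ?_
      have : 0 ≤ (A i - t * g i) ^ 2 / (2 * t) := by positivity
      have e : (A i - t * g i) ^ 2 / (2 * t)
          = 1 / (2 * t) * A i ^ 2 + t / 2 * g i ^ 2 - A i * g i := by
        field_simp
        ring
      linarith
    rw [Finset.sum_add_distrib, ← Finset.mul_sum, ← Finset.mul_sum] at this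
    have h : ∑ i ∈ Z, g i ^ 2 ≤ 1 :=
      (Finset.sum_le_sum_of_subset_of_nonneg hZ fun _ _ _ => sq_nonneg _).trans hg
    nlinarith
  have h2 : ∑ i ∈ Z, A i ^ 2 ≤ w / 2 * M + 1 / (2 * w) * ∑ i ∈ s, A i ^ 4 := by
    have : ∑ i ∈ Z, A i ^ 2 ≤ ∑ i ∈ Z, (w / 2 + 1 / (2 * w) * A i ^ 4) := by
      refine Finset.sum_le_sum fun i _ => ?_
      have : 0 ≤ (A i ^ 2 - w) ^ 2 / (2 * w) := by positivity
      have e : (A i ^ 2 - w) ^ 2 / (2 * w) = w / 2 + 1 / (2 * w) * A i ^ 4 - A i ^ 2 := by
        field_simp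
        ring
      linarith
    rw [Finset.sum_add_distrib, Finset.sum_const, ← Finset.mul_sum, nsmul_eq_mul] at this
    have h4 : ∑ i ∈ Z, A i ^ 4 ≤ ∑ i ∈ s, A i ^ 4 :=
      Finset.sum_le_sum_of_subset_of_nonneg hZ fun _ _ _ => by positivity
    have h5 := mul_le_mul_of_nonneg_left h4 (by positivity : (0:ℝ) ≤ 1 / (2 * w))
    nlinarith [mul_le_mul_of_nonneg_right hM (by positivity : (0:ℝ) ≤ w / 2)]
  have h3 : ∑ i ∈ s \ Z, A i * g i
      ≤ (1 / 2) * ∑ i ∈ s, A i ^ 2 + θ / 2 * ∑ i ∈ s, wgt i * g i ^ 2 := by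
    set F := (s \ Z).filter (fun i => A i ≠ 0) with hF
    have e : ∑ i ∈ s \ Z, A i * g i = ∑ i ∈ F, A i * g i := by
      refine (Finset.sum_filter_of_ne fun i _ hi => ?_).symm
      exact fun h => hi (by rw [h, zero_mul])
    rw [e]
    have hr := hrest F (Finset.filter_subset _ _) fun i hi => (mem_filter.1 hi).2
    have hsub : F ⊆ s := (Finset.filter_subset _ _).trans Finset.sdiff_subset
    have hA2 : ∑ i ∈ F, A i ^ 2 ≤ ∑ i ∈ s, A i ^ 2 :=
      Finset.sum_le_sum_of_subset_of_nonneg hsub fun _ _ _ => sq_nonneg _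
    have : ∑ i ∈ F, A i * g i ≤ ∑ i ∈ F, ((1:ℝ) / 2 * A i ^ 2 + 1 / 2 * g i ^ 2) :=
      Finset.sum_le_sum fun i _ => by nlinarith [sq_nonneg (A i - g i)]
    rw [Finset.sum_add_distrib, ← Finset.mul_sum, ← Finset.mul_sum] at this
    linarith
  have h6 := mul_le_mul_of_nonneg_left h2 (by positivity : (0:ℝ) ≤ 1 / (2 * t))
  linarith

/-- Weight that a restriction to `J` keeps on good sets. -/
theorem restricted_bound (h0 : 0 < p) (h1 : p < 1) {B : ℝ} (hB : 16 / (p * (1 - p)) ≤ B)
    (hJ : J ⊆ G) {f : Finset α → ℝ} (hf : ∀ x, f x = 0 ∨ f x = 1)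
    (R Q : Finset α → Prop) [DecidablePred R] [DecidablePred Q] (d K : ℕ)
    (hR : ∀ T, R T → T.card ≤ d) (hQ : ∀ S, Q S → S.card ≤ K) {Mx : ℝ} (hMx0 : 0 ≤ Mx)
    (hMx : ∀ S ⊆ J, Q S →
      ∑ T ∈ G.powerset.filter (fun T => S ⊆ T ∧ R T), coef p G f T ^ 2 ≤ Mx)
    {θ t w : ℝ} (hθ : 0 < θ) (ht : 0 < t) (hw : 0 < w) :
    ∑ T ∈ G.powerset.filter (fun T => R T ∧ Q (T ∩ J)), coef p G f T ^ 2
      ≤ 1 / t * (w / 2 * (K * B ^ (K + 1) / θ ^ 3 + 1) ^ K + B ^ d * Mx / (2 * w)) + t
        + θ * ∑ T ∈ G.powerset, (T.card : ℝ) * coef p G f T ^ 2 := by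
  have hpq : 0 < p * (1 - p) := mul_pos h0 (by linarith)
  have hB0 : 0 < B := lt_of_lt_of_le (by positivity) hB
  set a : Finset α → ℝ := fun T => if R T ∧ Q (T ∩ J) then coef p G f T else 0 with hadef
  set c : Finset α → Finset α → ℝ := fun S U => if U ⊆ G \ J then a (U ∪ S) else 0 with hcdef
  set cg : Finset α → Finset α → ℝ := fun S U => if U ⊆ G \ J then coef p G f (U ∪ S) else 0
    with hcgdef
  set A : Finset α → Finset α → ℝ := fun S x => ∑ U ∈ G.powerset, c S U * phi p U x with hA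
  set g : Finset α → Finset α → ℝ := fun S x => ∑ U ∈ G.powerset, cg S U * phi p U x with hg
  have hsub : (G \ J).powerset ⊆ G.powerset := powerset_mono.2 sdiff_subset
  have hrestrict : ∀ F : Finset α → ℝ,
      ∑ U ∈ G.powerset, (if U ⊆ G \ J then F U else 0) = ∑ U ∈ (G \ J).powerset, F U := by
    intro F
    rw [← Finset.sum_filter]
    refine Finset.sum_congr ?_ fun _ _ => rfl
    ext U
    simp only [mem_filter, mem_powerset]
    exact ⟨fun h => h.2, fun h => ⟨h.trans sdiff_subset, h⟩⟩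
  have hcoef : ∀ x, x ⊆ G → ∀ S ⊆ J, g S x = coef p J (fun y => f (y ∪ (x \ J))) S := by
    intro x hx S hS
    have hexp : ∀ y, y ⊆ J → f (y ∪ (x \ J))
        = ∑ S' ∈ J.powerset, g S' x * phi p S' y := by
      intro y hy
      rw [expansion h0 h1 f (union_subset (hy.trans hJ) (sdiff_subset.trans hx)),
        sum_split hJ]
      refine Finset.sum_congr rfl fun S' hS' => ?_
      have hS'J := mem_powerset.1 hS'
      simp only [hg, hcgdef, ite_mul, zero_mul]
      rw [hrestrict, Finset.sum_mul]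
      refine Finset.sum_congr rfl fun U hU => ?_
      have hUJ := mem_powerset.1 hU
      have hdisj : Disjoint U S' :=
        Finset.disjoint_left.2 fun i hiU hiS => (mem_sdiff.1 (hUJ hiU)).2 (hS'J hiS)
      rw [phi, Finset.prod_union hdisj, mul_assoc]
      congr 1
      refine congrArg₂ (· * ·) (Finset.prod_congr rfl fun i hi => ?_)
        (Finset.prod_congr rfl fun i hi => ?_)
      · have := mem_sdiff.1 (hUJ hi)
        have hiy : i ∉ y := fun h => this.2 (hy h)
        simp [chi, this.2, hiy]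
      · have := hS'J hi
        simp [chi, this]
    rw [coef, Ex_congr (h := fun y => (∑ S' ∈ J.powerset, g S' x * phi p S' y) *
      (∑ S' ∈ J.powerset, (if S' = S then (1:ℝ) else 0) * phi p S' y)) (fun y hy => by
        simp only [ite_mul, one_mul, zero_mul, Finset.sum_ite_eq', mem_powerset, hS, if_true]
        rw [hexp y hy]),
      Ex_expansion_mul h0 h1 (fun T hT => mem_powerset.1 hT)]
    simp [hS]
  set I := ∑ T ∈ G.powerset, (T.card : ℝ) * coef p G f T ^ 2 with hI
  set Gd := ∑ T ∈ G.powerset.filter (fun T => R T ∧ Q (T ∩ J)), coef p G f T ^ 2 with hGd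
  set M : ℝ := ((K:ℝ) * B ^ (K + 1) / θ ^ 3 + 1) ^ K with hM
  have point : ∀ x, x ⊆ G → ∑ S ∈ J.powerset, A S x * g S x
      ≤ 1 / (2 * t) * (w / 2 * M + 1 / (2 * w) * ∑ S ∈ J.powerset, A S x ^ 4) + t / 2
        + (1 / 2) * ∑ S ∈ J.powerset, A S x ^ 2
        + θ / 2 * ∑ S ∈ J.powerset, (S.card : ℝ) * g S x ^ 2 := by
    intro x hx
    set h : Finset α → ℝ := fun y => f (y ∪ (x \ J)) with hh
    have hgc : ∀ S ∈ J.powerset, g S x = coef p J h S := fun S hS =>
      hcoef x hx S (mem_powerset.1 hS)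
    set τ := θ ^ 3 / B ^ (K + 1) with hτ
    have hτ0 : 0 < τ := by positivity
    set low : α → ℝ := fun i =>
      ∑ S ∈ J.powerset.filter (fun S => i ∈ S ∧ S.card ≤ K), coef p J h S ^ 2 with hlow
    set J0 := J.filter (fun i => τ ≤ low i) with hJ0
    have hh1 : ∑ S ∈ J.powerset, coef p J h S ^ 2 ≤ 1 := by
      rw [parseval h0 h1]
      calc _ ≤ Ex p J (fun _ => (1:ℝ)) := Ex_mono h0.le h1.le fun y _ => by
            rcases hf (y ∪ (x \ J)) with hy | hy <;> simp [hh, hy]
        _ = 1 := Ex_const 1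
    have hswap : ∀ (P : Finset α → Prop) [DecidablePred P],
        ∑ i ∈ J, ∑ S ∈ J.powerset.filter (fun S => i ∈ S ∧ P S), coef p J h S ^ 2
          = ∑ S ∈ J.powerset.filter P, (S.card : ℝ) * coef p J h S ^ 2 := by
      intro P _
      rw [Finset.sum_comm' (t' := J.powerset.filter P) (s' := fun S => S)]
      · simp
      · intro i S
        simp only [mem_filter, mem_powerset]
        exact ⟨fun h => ⟨h.2.2.1, h.2.1, h.2.2.2⟩, fun h => ⟨h.2.1 h.1, h.2.1, h.1, h.2.2⟩⟩
    have hJ0c : (J0.card : ℝ) * τ ≤ K := by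
      calc (J0.card : ℝ) * τ ≤ ∑ i ∈ J0, low i := by
            rw [← nsmul_eq_mul, ← Finset.sum_const]
            exact Finset.sum_le_sum fun i hi => (mem_filter.1 hi).2
        _ ≤ ∑ i ∈ J, low i := Finset.sum_le_sum_of_subset_of_nonneg (filter_subset _ _)
              fun _ _ _ => Finset.sum_nonneg fun _ _ => sq_nonneg _
        _ = ∑ S ∈ J.powerset.filter (fun S => S.card ≤ K), (S.card : ℝ) * coef p J h S ^ 2 :=
              hswap (fun S => S.card ≤ K)
        _ ≤ ∑ S ∈ J.powerset.filter (fun S => S.card ≤ K), (K : ℝ) * coef p J h S ^ 2 :=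
              Finset.sum_le_sum fun S hS => mul_le_mul_of_nonneg_right
                (by exact_mod_cast (mem_filter.1 hS).2) (sq_nonneg _)
        _ ≤ K * 1 := by
              rw [← Finset.mul_sum]
              refine mul_le_mul_of_nonneg_left (le_trans ?_ hh1) (Nat.cast_nonneg K)
              exact Finset.sum_le_sum_of_subset_of_nonneg (filter_subset _ _)
                fun _ _ _ => sq_nonneg _
        _ = K := mul_one _
    set Z := J0.powerset.filter (fun S => S.card ≤ K) with hZ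
    have hZM : (Z.card : ℝ) ≤ M := by
      have := card_small_subsets_le J0 K
      calc (Z.card : ℝ) ≤ ((J0.card : ℝ) + 1) ^ K := by exact_mod_cast this
        _ ≤ M := by
          refine pow_le_pow_left₀ (by positivity) ?_ K
          have : (J0.card : ℝ) ≤ K / τ := (le_div_iff₀ hτ0).2 hJ0c
          rw [hτ, div_div_eq_mul_div] at this
          linarith
    refine inner_le (s := J.powerset) (Z := Z) ?_ (fun S => A S x) (fun S => g S x)
      (fun S => (S.card : ℝ)) ht hw hZM ?_ (fun i hi _ => Or.inr hi) ?_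
    · intro S hS
      exact mem_powerset.2 ((mem_powerset.1 (mem_filter.1 hS).1).trans (filter_subset _ _))
    · rw [Finset.sum_congr rfl fun S hS => by rw [hgc S hS]]
      exact hh1
    · intro F hF hF0
      have hmem : ∀ S ∈ F, S.card ≤ K ∧ ∃ i ∈ J \ J0, i ∈ S := by
        intro S hS
        obtain ⟨hSJ, hSZ⟩ := mem_sdiff.1 (hF hS)
        have hQS : S.card ≤ K := by
          by_contra hne
          apply hF0 S hS
          refine Finset.sum_eq_zero fun U _ => ?_
          simp only [hcdef, hadef]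
          by_cases hU : U ⊆ G \ J
          · rw [if_pos hU, split_inter (mem_powerset.1 hSJ) hU, if_neg, zero_mul]
            exact fun hh => hne (hQ S hh.2)
          · rw [if_neg hU, zero_mul]
        refine ⟨hQS, ?_⟩
        by_contra hne
        push Not at hne
        refine hSZ (mem_filter.2 ⟨mem_powerset.2 fun i hi => ?_, hQS⟩)
        by_contra hiJ0
        exact hne i (mem_sdiff.2 ⟨mem_powerset.1 hSJ hi, hiJ0⟩) hi
      have hlowle : ∀ i ∈ J \ J0, low i
          ≤ θ * ∑ S ∈ J.powerset.filter (fun S => i ∈ S), coef p J h S ^ 2 := by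
        intro i hi
        obtain ⟨hiJ, hiJ0⟩ := mem_sdiff.1 hi
        have hlt : low i < τ := not_le.1 fun hh => hiJ0 (mem_filter.2 ⟨hiJ, hh⟩)
        have hl0 : 0 ≤ low i := Finset.sum_nonneg fun _ _ => sq_nonneg _
        have h3 := low_influence_sq h0 h1 hB hiJ (g := h) (fun y => hf _) K
        set b := ∑ S ∈ J.powerset.filter (fun S => i ∈ S), coef p J h S ^ 2
        have hb0 : 0 ≤ b := Finset.sum_nonneg fun _ _ => sq_nonneg _
        refine le_of_pow_le_pow_left₀ three_ne_zero (by positivity) ?_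
        calc low i ^ 3 = low i * low i ^ 2 := by ring
          _ ≤ τ * (B ^ (K + 1) * b ^ 3) := mul_le_mul hlt.le h3 (sq_nonneg _) hτ0.le
          _ = (θ * b) ^ 3 := by rw [hτ]; field_simp
      have e1 : ∀ S ∈ F, g S x ^ 2
          ≤ ∑ i ∈ J \ J0, if i ∈ S ∧ S.card ≤ K then coef p J h S ^ 2 else 0 := by
        intro S hS
        obtain ⟨hc, i, hi, hiS⟩ := hmem S hS
        rw [hgc S ((mem_sdiff.1 (hF hS)).1)]
        refine le_trans (le_of_eq ?_) (Finset.single_le_sum (fun j _ => ?_) hi)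
        · rw [if_pos ⟨hiS, hc⟩]
        · split_ifs <;> positivity
      calc ∑ S ∈ F, g S x ^ 2
          ≤ ∑ S ∈ F, ∑ i ∈ J \ J0, if i ∈ S ∧ S.card ≤ K then coef p J h S ^ 2 else 0 :=
            Finset.sum_le_sum e1
        _ ≤ ∑ S ∈ J.powerset, ∑ i ∈ J \ J0,
              if i ∈ S ∧ S.card ≤ K then coef p J h S ^ 2 else 0 :=
            Finset.sum_le_sum_of_subset_of_nonneg (hF.trans sdiff_subset)
              fun _ _ _ => Finset.sum_nonneg fun _ _ => by split_ifs <;> positivity
        _ = ∑ i ∈ J \ J0, low i := by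
            rw [Finset.sum_comm]
            exact Finset.sum_congr rfl fun i _ => (Finset.sum_filter _ _).symm
        _ ≤ ∑ i ∈ J \ J0, θ * ∑ S ∈ J.powerset.filter (fun S => i ∈ S), coef p J h S ^ 2 :=
            Finset.sum_le_sum hlowle
        _ ≤ θ * ∑ i ∈ J, ∑ S ∈ J.powerset.filter (fun S => i ∈ S ∧ True), coef p J h S ^ 2 := by
            rw [← Finset.mul_sum]
            refine mul_le_mul_of_nonneg_left ?_ hθ.le
            simp only [and_true]
            exact Finset.sum_le_sum_of_subset_of_nonneg sdiff_subset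
              fun _ _ _ => Finset.sum_nonneg fun _ _ => sq_nonneg _
        _ = _ := by
            rw [hswap, Finset.filter_true]
            congr 1
            exact Finset.sum_congr rfl fun S hS => by rw [hgc S hS]
  have expAg : Ex p G (fun x => ∑ S ∈ J.powerset, A S x * g S x) = Gd := by
    rw [Ex_sum, hGd, Finset.sum_filter, sum_split hJ]
    refine Finset.sum_congr rfl fun S hS => ?_
    rw [hA, hg, Ex_expansion_mul h0 h1 (fun T hT => mem_powerset.1 hT)]
    simp only [hcdef, hcgdef, ite_mul, zero_mul]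
    rw [hrestrict]
    refine Finset.sum_congr rfl fun U hU => ?_
    rw [if_pos (mem_powerset.1 hU)]
    simp only [hadef]
    split_ifs <;> ring
  have hcsq : ∀ S, ∑ U ∈ G.powerset, c S U * c S U = ∑ U ∈ (G \ J).powerset, a (U ∪ S) ^ 2 := by
    intro S
    simp only [hcdef, ite_mul, zero_mul]
    rw [hrestrict]
    refine Finset.sum_congr rfl fun U hU => ?_
    rw [if_pos (mem_powerset.1 hU)]
    ring
  have hGda : ∑ T ∈ G.powerset, a T ^ 2 = Gd := by
    rw [hGd, Finset.sum_filter]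
    refine Finset.sum_congr rfl fun T _ => ?_
    simp only [hadef]
    split_ifs <;> ring
  have expA2 : Ex p G (fun x => ∑ S ∈ J.powerset, A S x ^ 2) = Gd := by
    rw [Ex_sum, ← hGda, sum_split hJ]
    refine Finset.sum_congr rfl fun S hS => ?_
    simp only [hA, sq (∑ U ∈ G.powerset, c S U * phi p U _)]
    rw [Ex_expansion_mul h0 h1 (fun T hT => mem_powerset.1 hT), hcsq]
  have expg : Ex p G (fun x => ∑ S ∈ J.powerset, (S.card : ℝ) * g S x ^ 2) ≤ I := by
    rw [Ex_sum, hI, sum_split hJ]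
    refine Finset.sum_le_sum fun S hS => ?_
    rw [Ex_smul]
    simp only [hg, sq (∑ U ∈ G.powerset, cg S U * phi p U _)]
    rw [Ex_expansion_mul h0 h1 (fun T hT => mem_powerset.1 hT)]
    simp only [hcgdef, ite_mul, zero_mul]
    rw [hrestrict, Finset.mul_sum]
    refine Finset.sum_le_sum fun U hU => ?_
    rw [if_pos (mem_powerset.1 hU), ← sq]
    exact mul_le_mul_of_nonneg_right
      (by exact_mod_cast Finset.card_le_card Finset.subset_union_right) (sq_nonneg _)
  have hf1 : ∑ T ∈ G.powerset, coef p G f T ^ 2 ≤ 1 := by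
    rw [parseval h0 h1]
    calc _ ≤ Ex p G (fun _ => (1:ℝ)) := Ex_mono h0.le h1.le fun y _ => by
          rcases hf y with hy | hy <;> simp [hy]
      _ = 1 := Ex_const 1
  have hGd1 : Gd ≤ 1 :=
    (Finset.sum_le_sum_of_subset_of_nonneg (filter_subset _ _) fun _ _ _ => sq_nonneg _).trans hf1
  have expA4 : Ex p G (fun x => ∑ S ∈ J.powerset, A S x ^ 4) ≤ B ^ d * Mx := by
    rw [Ex_sum]
    have hstep : ∀ S ∈ J.powerset, Ex p G (fun x => A S x ^ 4)
        ≤ B ^ d * Mx * ∑ U ∈ (G \ J).powerset, a (U ∪ S) ^ 2 := by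
      intro S hS
      have hh := hyper h0 h1 B hB G d (c S) (fun U _ hd => by
        simp only [hcdef, hadef]
        split_ifs with h2 h3
        · exact absurd ((Finset.card_le_card Finset.subset_union_left).trans (hR _ h3.1))
            (by omega)
        all_goals rfl)
      refine hh.trans ?_
      have e : ∑ U ∈ G.powerset, c S U ^ 2 = ∑ U ∈ (G \ J).powerset, a (U ∪ S) ^ 2 := by
        rw [← hcsq]
        exact Finset.sum_congr rfl fun U _ => sq _
      rw [e, mul_assoc (B ^ d), sq]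
      refine mul_le_mul_of_nonneg_left ?_ (by positivity)
      refine mul_le_mul_of_nonneg_right ?_ (Finset.sum_nonneg fun _ _ => sq_nonneg _)
      by_cases hQS : Q S
      · refine le_trans ?_ (hMx S (mem_powerset.1 hS) hQS)
        rw [Finset.sum_filter]
        rw [sum_split hJ]
        refine le_trans ?_ (Finset.single_le_sum (fun S' _ => Finset.sum_nonneg fun U _ => ?_) hS)
        · refine Finset.sum_le_sum fun U hU => ?_
          simp only [hadef]
          rw [split_inter (mem_powerset.1 hS) (mem_powerset.1 hU)]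
          split_ifs with h2 h3
          · exact le_rfl
          · exact absurd ⟨Finset.subset_union_right, h2.1⟩ h3
          · simp [sq_nonneg]
          · simp
        · split_ifs <;> positivity
      · refine le_of_eq_of_le (Finset.sum_eq_zero fun U hU => ?_) hMx0
        simp only [hadef]
        rw [split_inter (mem_powerset.1 hS) (mem_powerset.1 hU), if_neg (fun hh => hQS hh.2)]
        ring
    refine (Finset.sum_le_sum hstep).trans ?_
    rw [← Finset.mul_sum, ← sum_split hJ (fun T => a T ^ 2), hGda]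
    exact mul_le_of_le_one_right (by positivity) hGd1
  have main := Ex_mono (p := p) (G := G) h0.le h1.le point
  simp only [Ex_add, Ex_smul, Ex_const, mul_add] at main
  rw [expAg, expA2] at main
  have hw2 := mul_le_mul_of_nonneg_left expA4 (by positivity : (0:ℝ) ≤ 1 / (2 * w))
  have h7 := mul_le_mul_of_nonneg_left hw2 (by positivity : (0:ℝ) ≤ 1 / (2 * t))
  have h8 := mul_le_mul_of_nonneg_left expg (by positivity : (0:ℝ) ≤ θ / 2)
  have e9 : 1 / t * (w / 2 * M + B ^ d * Mx / (2 * w))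
      = 2 * (1 / (2 * t) * (w / 2 * M) + 1 / (2 * t) * (1 / (2 * w) * (B ^ d * Mx))) := by
    field_simp
  rw [e9]
  linarith

end Vale.Agent.P063
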