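import Vale.Agent.P063.Junta
import Vale.Agent.P063.Hyper

/-!
# Threshold widths of hypergraph properties
-/

open Finset Filter Real Topology

namespace Vale.Agent.P063

/-- The admissible constant `η₀`. -/
noncomputable def eta0 (r : ℕ) : ℝ := 1 / (256 * 97 * 388 * (r : ℝ) ^ 2)

/-- The admissible constant `η₁`. -/
noncomputable def eta1 (r : ℕ) : ℝ := 1 / (256 * 97 * 18 * (r : ℝ))

/-- The admissible fraction of the critical level. -/
noncomputable def frac (r : ℕ) : ℝ := min (1 / (2 * 192 ^ r)) (eta0 r / 192)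

lemma frac_pos {r : ℕ} (hr : 2 ≤ r) : 0 < frac r := by
  have : (2:ℝ) ≤ r := by exact_mod_cast hr
  refine lt_min (by positivity) ?_
  rw [eta0]
  positivity

lemma frac_le_one (r : ℕ) : frac r ≤ 1 := by
  refine (min_le_left _ _).trans ?_
  rw [div_le_one (by positivity)]
  have : (1:ℝ) ≤ 192 ^ r := one_le_pow₀ (by norm_num)
  linarith

/-- The critical level. -/
noncomputable def level (r : ℕ) (N l : ℝ) : ℝ := (N / l) ^ ((r : ℝ) / ((r : ℝ) - 1))

lemma expo_le_two {r : ℕ} (hr : 2 ≤ r) : (r : ℝ) / ((r : ℝ) - 1) ≤ 2 := by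
  have : (2:ℝ) ≤ r := by exact_mod_cast hr
  rw [div_le_iff₀ (by linarith)]
  linarith

lemma expo_pos {r : ℕ} (hr : 2 ≤ r) : 0 < (r : ℝ) / ((r : ℝ) - 1) := by
  have : (2:ℝ) ≤ r := by exact_mod_cast hr
  exact div_pos (by linarith) (by linarith)

lemma level_pow {r : ℕ} (hr : 2 ≤ r) {N l : ℝ} (h : 0 ≤ N / l) :
    level r N l ^ (r - 1) = (N / l) ^ r := by
  have h2 : (2:ℝ) ≤ r := by exact_mod_cast hr
  rw [level, ← rpow_natCast _ (r - 1), ← rpow_mul h, Nat.cast_sub (by omega), Nat.cast_one,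
    div_mul_cancel₀ _ (by linarith), rpow_natCast]

lemma level_le_sq {r : ℕ} (hr : 2 ≤ r) {N l : ℝ} (h : 1 ≤ N / l) :
    level r N l ≤ (N / l) ^ 2 := by
  rw [← rpow_natCast (N / l) 2]
  exact rpow_le_rpow_of_exponent_le h (by push_cast; exact expo_le_two hr)

lemma exp_le_choose {n v : ℕ} (hn : 2 ≤ n) (hv : (v : ℝ) ≤ Real.log n)
    (hbig : 2 * Real.log n * Real.exp (Real.log n / 2) ≤ n) :
    Real.exp ((v : ℝ) * (Real.log n / 2)) ≤ (n.choose v : ℝ) := by
  set N := Real.log n with hN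
  have hn0 : (0:ℝ) < n := by positivity
  have hNn : N ≤ (n:ℝ) - 1 := Real.log_le_sub_one_of_pos hn0
  have hvn : v ≤ n := by exact_mod_cast (show (v:ℝ) ≤ n by linarith)
  have hN0 : 0 ≤ N := Real.log_nonneg (by exact_mod_cast (by omega : 1 ≤ n))
  have hex : (1:ℝ) ≤ Real.exp (N / 2) := Real.one_le_exp (by linarith)
  have hbase : (v:ℝ) * Real.exp (N / 2) ≤ ((n + 1 - v : ℕ) : ℝ) := by
    rw [Nat.cast_sub (by omega)]
    push_cast
    nlinarith [mul_le_mul_of_nonneg_right hv (Real.exp_nonneg (N / 2))]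
  have h1 := Nat.pow_le_choose (α := ℝ) v n
  refine le_trans ?_ h1
  rw [le_div_iff₀ (by exact_mod_cast v.factorial_pos), Real.exp_nat_mul]
  calc Real.exp (N / 2) ^ v * (v.factorial : ℝ) ≤ Real.exp (N / 2) ^ v * (v:ℝ) ^ v :=
        mul_le_mul_of_nonneg_left (by exact_mod_cast Nat.factorial_le_pow v) (by positivity)
    _ = ((v:ℝ) * Real.exp (N / 2)) ^ v := by rw [← mul_pow]; ring
    _ ≤ _ := pow_le_pow_left₀ (by positivity) hbase v

lemma vertices_le {r : ℕ} (hr : 2 ≤ r) {k l N K v : ℝ} (hk1 : 1 ≤ k) (hl2 : 2 ≤ l)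
    (hN0 : 0 ≤ N) (hkl : k * l ≤ eta0 r * N) (hKle : K ≤ 97 * r * k) (hv : v ≤ K * r) :
    v ≤ N := by
  have hr2 : (2:ℝ) ≤ r := by exact_mod_cast hr
  have hk' : k ≤ eta0 r * N := le_trans (le_mul_of_one_le_right (by linarith) (by linarith)) hkl
  calc v ≤ 97 * r * (eta0 r * N) * r := by
        refine hv.trans ?_
        gcongr
        exact hKle.trans (by gcongr)
    _ = N / (256 * 388) := by rw [eta0]; field_simp
    _ ≤ N := by rw [div_le_iff₀ (by norm_num)]; linarith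

lemma orbit_term_le {B k l N : ℝ} (hB0 : 0 ≤ B) (hB : B = Real.exp l) (hl2 : 2 ≤ l) (j : ℕ) :
    B ^ (2 * 2 ^ j) * ((2:ℝ) ^ (2 * 2 ^ j) * Real.exp (-(k * N / 16)))
      ≤ Real.exp (3 * (2:ℝ) ^ j * l - k * N / 16) := by
  rw [← mul_assoc, ← mul_pow]
  have : B * 2 ≤ Real.exp (3 / 2 * l) := by
    rw [hB, show 3 / 2 * l = l + l / 2 by ring, Real.exp_add]
    exact mul_le_mul_of_nonneg_left (by linarith [Real.add_one_le_exp (l / 2)]) (Real.exp_nonneg l)
  calc (B * 2) ^ (2 * 2 ^ j) * Real.exp (-(k * N / 16))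
      ≤ Real.exp (3 / 2 * l) ^ (2 * 2 ^ j) * Real.exp (-(k * N / 16)) :=
        mul_le_mul_of_nonneg_right (pow_le_pow_left₀ (by positivity) this _) (Real.exp_nonneg _)
    _ = _ := by
      rw [← Real.exp_nat_mul, ← Real.exp_add]
      congr 1
      push_cast
      ring

lemma junta_count_le {r K : ℕ} (hr : 2 ≤ r) {B k l N : ℝ} (hB : B = Real.exp l) (hk1 : 1 ≤ k)
    (hl2 : 2 ≤ l) (hN1 : 1 ≤ N) (hkl : k * l ≤ eta0 r * N)
    (hlogN : Real.log N ≤ eta1 r * N) (hK1 : (1:ℝ) ≤ K) (hKle : (K : ℝ) ≤ 97 * r * k) :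
    ((K:ℝ) * B ^ (K + 1) / (1 / N ^ 6) ^ 3 + 1) ^ K ≤ Real.exp (k * N / 128) := by
  have hr2 : (2:ℝ) ≤ r := by exact_mod_cast hr
  have hB1 : (1:ℝ) ≤ B := by rw [hB]; exact Real.one_le_exp (by linarith)
  have hB0 : 0 < B := by linarith
  have hN18 : N ^ 18 = Real.exp (18 * Real.log N) := by
    conv_lhs => rw [← Real.exp_log (show (0:ℝ) < N by linarith), ← Real.exp_nat_mul]
    norm_num
  have hone : (1:ℝ) ≤ B ^ (K + 1) * N ^ 18 :=
    one_le_mul_of_one_le_of_one_le (one_le_pow₀ hB1) (one_le_pow₀ hN1)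
  have hbase : (K:ℝ) * B ^ (K + 1) / (1 / N ^ 6) ^ 3 + 1
      ≤ Real.exp (3 * K * l + 18 * Real.log N) := by
    have e : (K:ℝ) * B ^ (K + 1) / (1 / N ^ 6) ^ 3 = K * (B ^ (K + 1) * N ^ 18) := by field_simp
    rw [e]
    calc (K:ℝ) * (B ^ (K + 1) * N ^ 18) + 1 ≤ ((K:ℝ) + 1) * (B ^ (K + 1) * N ^ 18) := by
          linarith
      _ ≤ Real.exp K * (B ^ (K + 1) * N ^ 18) :=
          mul_le_mul_of_nonneg_right (Real.add_one_le_exp _) (by linarith)
      _ = Real.exp ((K:ℝ) + ((K:ℝ) + 1) * l + 18 * Real.log N) := by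
          rw [hB, hN18, ← Real.exp_nat_mul, ← Real.exp_add, ← Real.exp_add]
          congr 1
          push_cast
          ring
      _ ≤ _ := Real.exp_le_exp.2 (by nlinarith)
  refine (pow_le_pow_left₀ (by positivity) hbase K).trans ?_
  rw [← Real.exp_nat_mul, Real.exp_le_exp]
  have hlog0 : 0 ≤ Real.log N := Real.log_nonneg hN1
  calc (K:ℝ) * (3 * K * l + 18 * Real.log N)
      ≤ (97 * r * k) * (3 * (97 * r * k) * l + 18 * (eta1 r * N)) := by gcongr
    _ = (97 * r * k) * (3 * (97 * r) * (k * l) + 18 * (eta1 r * N)) := by ring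
    _ ≤ (97 * r * k) * (4 * (97 * r) * (eta0 r * N) + 18 * (eta1 r * N)) := by
        gcongr
        norm_num
    _ = k * N / 128 := by rw [eta0, eta1]; field_simp; ring

lemma tail_le {L k l N M P : ℝ} (hk1 : 1 ≤ k) (hN1 : 1 ≤ N)
    (hM : M ≤ Real.exp (k * N / 128)) (hP : P ≤ Real.exp (3 * L * l - k * N / 16))
    (h3L : 3 * L * l ≤ k * N / 64) :
    1 / Real.exp (-(k * N / 512)) * (Real.exp (-(k * N / 64)) / 2 * M
        + P / (2 * Real.exp (-(k * N / 64))))
      ≤ Real.exp (-(N / 512)) := by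
  have hkN : 0 ≤ k * N := by nlinarith
  have hkN' : N ≤ k * N := le_mul_of_one_le_left (by linarith) hk1
  rw [div_mul_eq_mul_div, one_mul, div_le_iff₀ (Real.exp_pos _)]
  have ha : Real.exp (-(k * N / 64)) / 2 * M ≤ Real.exp (-(k * N / 256)) / 2 := by
    calc _ ≤ Real.exp (-(k * N / 64)) / 2 * Real.exp (k * N / 128) :=
          mul_le_mul_of_nonneg_left hM (by positivity)
      _ = Real.exp (-(k * N / 128)) / 2 := by
          rw [div_mul_eq_mul_div, ← Real.exp_add]
          congr 2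
          ring
      _ ≤ _ := div_le_div_of_nonneg_right (Real.exp_le_exp.2 (by linarith)) (by norm_num)
  have hb : P / (2 * Real.exp (-(k * N / 64))) ≤ Real.exp (-(k * N / 256)) / 2 := by
    calc _ ≤ Real.exp (3 * L * l - k * N / 16) / (2 * Real.exp (-(k * N / 64))) :=
          div_le_div_of_nonneg_right hP (by positivity)
      _ = Real.exp (3 * L * l - k * N / 16 + k * N / 64) / 2 := by
          rw [Real.exp_neg, Real.exp_add]
          field_simp
      _ ≤ _ := div_le_div_of_nonneg_right (Real.exp_le_exp.2 (by linarith)) (by norm_num)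
  calc _ ≤ Real.exp (-(k * N / 256)) := by linarith
    _ ≤ Real.exp (-(N / 512) + -(k * N / 512)) := Real.exp_le_exp.2 (by linarith)
    _ = _ := Real.exp_add _ _

/-- The Fourier weight of one dyadic scale. -/
lemma scale_bound {r n : ℕ} (hr : 2 ≤ r) (hn : 2 ≤ n) {p : ℝ} (h0 : 0 < p) (h1 : p < 1)
    {f : Finset (Finset (Fin n)) → ℝ} (hf : ∀ x, f x = 0 ∨ f x = 1)
    (hinv : ∀ (τ : Equiv.Perm (Fin n)), ∀ x ⊆ univ.powersetCard r, f (mapH τ x) = f x)
    {l N : ℝ} (hl : l = Real.log (16 / (p * (1 - p)))) (hN : N = Real.log n)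
    (hl2 : 2 ≤ l) (hN1 : 1 ≤ N) (hlN : 192 * l ≤ N) (hleta : l ≤ eta0 r * N)
    (hlogN : Real.log N ≤ eta1 r * N) (hbig : 2 * N * Real.exp (N / 2) ≤ n)
    (j : ℕ) (hj : (2:ℝ) ^ j ≤ frac r * level r N l) :
    ∑ T ∈ ((univ : Finset (Fin n)).powersetCard r).powerset.filter
        (fun T => 2 ^ j ≤ T.card ∧ T.card < 2 * 2 ^ j),
      coef p (univ.powersetCard r) f T ^ 2
      ≤ 1600 * (r:ℝ) ^ 2 * (2 * Real.exp (-(N / 512)) + 1 / N ^ 6 *
          ∑ T ∈ ((univ : Finset (Fin n)).powersetCard r).powerset,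
            (T.card : ℝ) * coef p (univ.powersetCard r) f T ^ 2) := by
  set G : Finset (Finset (Fin n)) := univ.powersetCard r with hG
  set L : ℝ := (2:ℝ) ^ j with hL
  have hL1 : 1 ≤ L := one_le_pow₀ (by norm_num)
  set B := 16 / (p * (1 - p)) with hB
  have hB0 : 0 < B := div_pos (by norm_num) (mul_pos h0 (by linarith))
  have hBexp : B = Real.exp l := by rw [hl, Real.exp_log hB0]
  have hr2 : (2:ℝ) ≤ r := by exact_mod_cast hr
  set k := max 1 (192 * L * l / N) with hk
  have hk1 : 1 ≤ k := le_max_left _ _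
  have hk2 : 192 * L * l ≤ k * N := (div_le_iff₀ (by linarith)).1 (le_max_right _ _)
  have hkL : k ≤ L := by
    refine max_le hL1 ?_
    rw [div_le_iff₀ (by linarith)]
    nlinarith
  have hNl : 1 ≤ N / l := by
    rw [le_div_iff₀ (by linarith)]
    linarith
  have hlev0 : 0 ≤ level r N l := rpow_nonneg (by linarith) _
  have hkl : k * l ≤ eta0 r * N := by
    rcases le_total (192 * L * l / N) 1 with h | h
    · rw [hk, max_eq_left h, one_mul]
      exact hleta
    · rw [hk, max_eq_right h]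
      have h2 : L ≤ eta0 r / 192 * (N / l) ^ 2 := hj.trans
        (mul_le_mul (min_le_right _ _) (level_le_sq hr hNl) hlev0 (by rw [eta0]; positivity))
      calc 192 * L * l / N * l ≤ 192 * (eta0 r / 192 * (N / l) ^ 2) * l / N * l := by gcongr
        _ = eta0 r * N := by field_simp
  set K := ⌈96 * r * k⌉₊ with hK
  have hK1 : (1:ℝ) ≤ K := by
    have : (96:ℝ) * r * k ≤ K := Nat.le_ceil _
    nlinarith
  have hKle : (K : ℝ) ≤ 97 * r * k := by
    have := Nat.ceil_lt_add_one (show (0:ℝ) ≤ 96 * r * k by positivity)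
    nlinarith
  have hsmall : ∀ h : ℕ, (h : ℝ) < k → 2 * (h : ℝ) ^ r ≤ L := by
    intro h hh
    rcases Nat.eq_zero_or_pos h with rfl | hpos
    · simp [zero_pow (by omega : r ≠ 0)]
      linarith
    have h1' : (1:ℝ) ≤ h := by exact_mod_cast hpos
    have hkeq : k = 192 * L * l / N := by
      rcases le_total (192 * L * l / N) 1 with h | h
      · rw [hk, max_eq_left h] at hh
        linarith
      · rw [hk, max_eq_right h]
    have hLr : L ^ (r - 1) ≤ 1 / (2 * 192 ^ r) * (N / l) ^ r := by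
      calc L ^ (r - 1) ≤ (frac r * level r N l) ^ (r - 1) := pow_le_pow_left₀ (by linarith) hj _
        _ = frac r ^ (r - 1) * (N / l) ^ r := by rw [mul_pow, level_pow hr (by linarith)]
        _ ≤ frac r * (N / l) ^ r := by
            refine mul_le_mul_of_nonneg_right ?_ (by positivity)
            exact pow_le_of_le_one (frac_pos hr).le (frac_le_one r) (by omega)
        _ ≤ _ := mul_le_mul_of_nonneg_right (min_le_left _ _) (by positivity)
    have hLsucc : L ^ r = L ^ (r - 1) * L := by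
      conv_lhs => rw [show r = r - 1 + 1 by omega, pow_succ]
    calc 2 * (h : ℝ) ^ r ≤ 2 * k ^ r := by gcongr
      _ = 2 * 192 ^ r * L ^ r / (N / l) ^ r := by
          rw [hkeq, show 192 * L * l / N = 192 * L / (N / l) by field_simp, div_pow, mul_pow]
          ring
      _ ≤ 2 * 192 ^ r * (1 / (2 * 192 ^ r) * (N / l) ^ r * L) / (N / l) ^ r := by
          rw [hLsucc]
          gcongr
      _ = L := by
          have : (N / l) ^ r ≠ 0 := pow_ne_zero _ (by linarith)
          field_simp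
  set R : Finset (Finset (Fin n)) → Prop := fun T => 2 ^ j ≤ T.card ∧ T.card < 2 * 2 ^ j with hR
  set Q : Finset (Finset (Fin n)) → Prop :=
    fun S => S.card ≤ K ∧ k / 8 < ((S.biUnion id).card : ℝ) with hQ
  have hθ0 : 0 < 1 / N ^ 6 := by
    have : 0 < N := by linarith
    positivity
  have h3L : 3 * L * l ≤ k * N / 64 := by linarith
  have hrest : ∀ J ⊆ G, ∑ T ∈ G.powerset.filter (fun T => R T ∧ Q (T ∩ J)), coef p G f T ^ 2
      ≤ 2 * Real.exp (-(N / 512)) + 1 / N ^ 6 *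
          ∑ T ∈ G.powerset, (T.card : ℝ) * coef p G f T ^ 2 := by
    intro J hJ
    have hMx : ∀ S ⊆ J, Q S →
        ∑ T ∈ G.powerset.filter (fun T => S ⊆ T ∧ R T), coef p G f T ^ 2
          ≤ (2:ℝ) ^ (2 * 2 ^ j) * Real.exp (-(k * N / 16)) := by
      intro S hSJ hS
      have hob := orbit_bound h0 h1 hf hinv S (2 * 2 ^ j)
      rw [Fintype.card_fin] at hob
      have hb := Finset.card_biUnion_le_card_mul S id r fun e he =>
        (mem_powersetCard.1 (hJ (hSJ he))).2.le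
      have hb' : ((S.biUnion id).card : ℝ) ≤ (K:ℝ) * r := by
        exact_mod_cast hb.trans (Nat.mul_le_mul_right r hS.1)
      have hv1 := vertices_le hr hk1 hl2 (by linarith) hkl hKle hb'
      have hch := exp_le_choose hn (v := (S.biUnion id).card) (hN ▸ hv1) (hN ▸ hbig)
      rw [← hN] at hch
      have hlow : Real.exp (k * N / 16) ≤ (n.choose (S.biUnion id).card : ℝ) := by
        refine le_trans (Real.exp_le_exp.2 ?_) hch
        have := mul_le_mul_of_nonneg_right hS.2.le (by linarith : (0:ℝ) ≤ N / 2)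
        linarith
      have hsub : ∑ T ∈ G.powerset.filter (fun T => S ⊆ T ∧ R T), coef p G f T ^ 2
          ≤ ∑ T ∈ G.powerset.filter (fun T => S ⊆ T ∧ T.card ≤ 2 * 2 ^ j), coef p G f T ^ 2 := by
        refine Finset.sum_le_sum_of_subset_of_nonneg (fun T hT => ?_) fun _ _ _ => sq_nonneg _
        obtain ⟨hT1, hT2, hT3⟩ := mem_filter.1 hT
        exact mem_filter.2 ⟨hT1, hT2, hT3.2.le⟩
      refine hsub.trans ?_
      rw [Real.exp_neg, ← div_eq_mul_inv, le_div_iff₀ (Real.exp_pos _), mul_comm]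
      exact le_trans (mul_le_mul_of_nonneg_right hlow
        (Finset.sum_nonneg fun _ _ => sq_nonneg _)) hob
    refine le_trans (restricted_bound h0 h1 (le_refl B) hJ hf R Q (2 * 2 ^ j) K
      (fun T hT => hT.2.le) (fun S hS => hS.1) (by positivity) hMx hθ0
      (Real.exp_pos (-(k * N / 512))) (Real.exp_pos (-(k * N / 64)))) ?_
    have hX := tail_le hk1 hN1 (junta_count_le hr hBexp hk1 hl2 hN1 hkl hlogN hK1 hKle)
      (orbit_term_le (k := k) (N := N) hB0.le hBexp hl2 j) h3L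
    have ht1 : Real.exp (-(k * N / 512)) ≤ Real.exp (-(N / 512)) :=
      Real.exp_le_exp.2 (by
        have := le_mul_of_one_le_left (show (0:ℝ) ≤ N by linarith) hk1
        linarith)
    linarith
  have hρ0 : 0 ≤ k / L := by positivity
  have hρ1 : k / L ≤ 1 := (div_le_one (by linarith)).2 hkL
  have havg := Ex_mono (p := k / L) (G := G) hρ0 hρ1 hrest
  simp only [Finset.sum_filter, Ex_const] at havg
  rw [Ex_sum] at havg
  rw [Finset.sum_filter]
  have hlow : ∀ T ∈ G.powerset, 1 / (1600 * (r:ℝ) ^ 2) *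
      (if R T then coef p G f T ^ 2 else 0)
      ≤ Ex (k / L) G (fun J => if R T ∧ Q (T ∩ J) then coef p G f T ^ 2 else 0) := by
    intro T hT
    by_cases hRT : R T
    · have h1' : L ≤ (T.card : ℝ) := by rw [hL]; exact_mod_cast hRT.1
      have h2' : (T.card : ℝ) ≤ 2 * L := by rw [hL]; exact_mod_cast hRT.2.le
      have hgp := good_prob (r := r) (by omega) (mem_powerset.1 hT) hk1 hkL h1' h2' hsmall
      rw [if_pos hRT, mul_comm, Ex_congr (h := fun J => coef p G f T ^ 2 *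
        if (T ∩ J).card ≤ K ∧ k / 8 < (((T ∩ J).biUnion id).card : ℝ) then 1 else 0)
        (fun J _ => by
          simp only [hQ, hRT, true_and]
          split_ifs <;> simp), Ex_smul]
      exact mul_le_mul_of_nonneg_left hgp (sq_nonneg _)
    · simp [hRT, Ex_const]
  have := (Finset.sum_le_sum hlow).trans havg
  rw [← Finset.mul_sum, div_mul_eq_mul_div, one_mul, div_le_iff₀ (by positivity)] at this
  exact this.trans (le_of_eq (mul_comm _ _))

lemma eventually_conditions {r : ℕ} (hr : 2 ≤ r) {δ : ℝ} (hδ : 0 < δ) :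
    ∀ᶠ n : ℕ in atTop, 2 ≤ n ∧ 4 ≤ Real.log n ∧
      192 * (5 * Real.log (Real.log n)) ≤ Real.log n ∧
      5 * Real.log (Real.log n) ≤ eta0 r * Real.log n ∧
      Real.log (Real.log n) ≤ eta1 r * Real.log n ∧
      2 * Real.log n * Real.exp (Real.log n / 2) ≤ n ∧
      4 ≤ Real.log (Real.log n) ∧
      3200 * (r:ℝ) ^ 2 * (2 * (Real.log n ^ 2 * Real.exp (-(Real.log n / 512)))
        + 1 / Real.log n ^ 2) ≤ δ := by
  have hr2 : (2:ℝ) ≤ r := by exact_mod_cast hr
  have hlog : Tendsto (fun n : ℕ => Real.log n) atTop atTop :=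
    Real.tendsto_log_atTop.comp tendsto_natCast_atTop_atTop
  have hsmall : ∀ a : ℝ, 0 < a → ∀ᶠ N : ℝ in atTop, Real.log N ≤ a * N := by
    intro a ha
    filter_upwards [Real.isLittleO_log_id_atTop.def ha, eventually_ge_atTop (0:ℝ)] with N h hN
    rw [Real.norm_eq_abs, Real.norm_eq_abs, id, abs_of_nonneg hN] at h
    exact (le_abs_self _).trans h
  have hfin : ∀ᶠ N : ℝ in atTop,
      3200 * (r:ℝ) ^ 2 * (2 * (N ^ 2 * Real.exp (-(N / 512))) + 1 / N ^ 2) ≤ δ := by
    have t1 : Tendsto (fun N : ℝ => N ^ 2 * Real.exp (-(N / 512))) atTop (𝓝 0) := by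
      have := ((Real.tendsto_pow_mul_exp_neg_atTop_nhds_zero 2).comp
        (tendsto_id.atTop_div_const (by norm_num : (0:ℝ) < 512))).const_mul ((512:ℝ) ^ 2)
      rw [mul_zero] at this
      refine this.congr fun N => ?_
      simp only [Function.comp_apply, id, div_pow]
      ring
    have t2 : Tendsto (fun N : ℝ => 1 / N ^ 2) atTop (𝓝 0) :=
      tendsto_const_nhds.div_atTop (tendsto_pow_atTop two_ne_zero)
    have t3 := ((t1.const_mul 2).add t2).const_mul (3200 * (r:ℝ) ^ 2)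
    simp only [mul_zero, add_zero] at t3
    exact t3.eventually (eventually_le_nhds hδ)
  have hN4 : ∀ᶠ N : ℝ in atTop, 4 ≤ N ∧ 4 ≤ Real.log N :=
    (eventually_ge_atTop 4).and (Real.tendsto_log_atTop.eventually_ge_atTop 4)
  have hexp : ∀ᶠ N : ℝ in atTop, 2 * N * Real.exp (N / 2) ≤ Real.exp N := by
    filter_upwards [eventually_ge_atTop (24:ℝ)] with N hN
    have h4 : 2 * N ≤ Real.exp (N / 2) := by
      have h := Real.add_one_le_exp (N / 4)
      calc 2 * N ≤ (N / 4 + 1) ^ 2 := by nlinarith [mul_le_mul_of_nonneg_right hN (show (0:ℝ) ≤ N by linarith)]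
        _ ≤ Real.exp (N / 4) ^ 2 := pow_le_pow_left₀ (by linarith) h 2
        _ = Real.exp (N / 2) := by rw [sq, ← Real.exp_add]; congr 1; ring
    calc 2 * N * Real.exp (N / 2) ≤ Real.exp (N / 2) * Real.exp (N / 2) := by gcongr
      _ = Real.exp N := by rw [← Real.exp_add]; congr 1; ring
  filter_upwards [eventually_ge_atTop 2, hlog.eventually hN4,
    hlog.eventually (hsmall (1 / 960) (by norm_num)),
    hlog.eventually (hsmall (eta0 r / 5) (by rw [eta0]; positivity)),
    hlog.eventually (hsmall (eta1 r) (by rw [eta1]; positivity)),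
    hlog.eventually hexp, hlog.eventually hfin] with n h2 h4 ha hb hc hd he
  refine ⟨h2, h4.1, by linarith, by linarith, hc, ?_, h4.2, he⟩
  rwa [Real.exp_log (by exact_mod_cast (by omega : 0 < n))] at hd

/-- The weight below the critical level is small. -/
lemma low_weight {r n : ℕ} (hr : 2 ≤ r) (hn2 : 2 ≤ n) {p : ℝ} (h0 : 0 < p) (h1 : p < 1)
    {f : Finset (Finset (Fin n)) → ℝ} (hf : ∀ x, f x = 0 ∨ f x = 1)
    (hinv : ∀ (τ : Equiv.Perm (Fin n)), ∀ x ⊆ univ.powersetCard r, f (mapH τ x) = f x)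
    {l N e : ℝ} (hl : l = Real.log (16 / (p * (1 - p)))) (hN : N = Real.log n)
    (hl2 : 2 ≤ l) (hN1 : 1 ≤ N) (hlN : 192 * l ≤ N) (hleta : l ≤ eta0 r * N)
    (hlogN : Real.log N ≤ eta1 r * N) (hbig : 2 * N * Real.exp (N / 2) ≤ n)
    (hfin : 3200 * (r:ℝ) ^ 2 * (2 * (N ^ 2 * Real.exp (-(N / 512))) + 1 / N ^ 2) ≤ e / 4)
    (hIsmall : ∑ T ∈ ((univ : Finset (Fin n)).powersetCard r).powerset,
      (T.card : ℝ) * coef p (univ.powersetCard r) f T ^ 2 ≤ N ^ 2)
    (hΓN : level r N l ≤ N ^ 2) (hΓ0 : 0 ≤ level r N l) :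
    ∑ T ∈ ((univ : Finset (Fin n)).powersetCard r).powerset.filter
      (fun T => 1 ≤ T.card ∧ (T.card : ℝ) ≤ frac r * level r N l),
      coef p (univ.powersetCard r) f T ^ 2 ≤ e / 4 := by
  have hε := frac_pos hr
  set G : Finset (Finset (Fin n)) := univ.powersetCard r with hG
  set Γ := level r N l with hΓ
  set I := ∑ T ∈ G.powerset, (T.card : ℝ) * coef p G f T ^ 2 with hI
  have hI0 : 0 ≤ I := Finset.sum_nonneg fun _ _ => by positivity
  set low := ∑ T ∈ G.powerset.filter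
    (fun T => 1 ≤ T.card ∧ (T.card : ℝ) ≤ frac r * Γ), coef p G f T ^ 2 with hlowdef
  set Jm := ⌊frac r * Γ⌋₊ + 1 with hJm
  set X := 1600 * (r:ℝ) ^ 2 * (2 * Real.exp (-(N / 512)) + 1 / N ^ 6 * I) with hX
  show low ≤ e / 4
  have hstep : low ≤ ∑ j ∈ Finset.range Jm, ∑ T ∈ G.powerset.filter
      (fun T => 1 ≤ T.card ∧ (T.card : ℝ) ≤ frac r * Γ),
      if 2 ^ j ≤ T.card ∧ T.card < 2 * 2 ^ j then coef p G f T ^ 2 else 0 := by
    rw [Finset.sum_comm]
    refine Finset.sum_le_sum fun T hT => ?_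
    obtain ⟨hT1, hTc, hTle⟩ := mem_filter.1 hT
    have hj1 : 2 ^ Nat.log 2 T.card ≤ T.card := Nat.pow_log_le_self 2 (by omega)
    have hj2 : T.card < 2 * 2 ^ Nat.log 2 T.card := by
      rw [← pow_succ']
      exact Nat.lt_pow_succ_log_self (by norm_num) _
    have hjJ : Nat.log 2 T.card ∈ Finset.range Jm := by
      rw [Finset.mem_range, hJm]
      have := Nat.log_le_self 2 T.card
      have := Nat.le_floor hTle
      omega
    refine le_trans (le_of_eq ?_) (Finset.single_le_sum (fun j _ => ?_) hjJ)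
    · rw [if_pos ⟨hj1, hj2⟩]
    · split_ifs <;> positivity
  have hper : ∀ j ∈ Finset.range Jm, (∑ T ∈ G.powerset.filter
      (fun T => 1 ≤ T.card ∧ (T.card : ℝ) ≤ frac r * Γ),
      if 2 ^ j ≤ T.card ∧ T.card < 2 * 2 ^ j then coef p G f T ^ 2 else 0) ≤ X := by
    intro j _
    by_cases hj : (2:ℝ) ^ j ≤ frac r * Γ
    · refine le_trans ?_ (scale_bound hr hn2 h0 h1 hf hinv hl hN hl2 hN1 hlN
        hleta hlogN hbig j hj)
      conv_rhs => rw [Finset.sum_filter]
      exact Finset.sum_le_sum_of_subset_of_nonneg (filter_subset _ _)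
        fun _ _ _ => by split_ifs <;> positivity
    · refine le_trans (le_of_eq (Finset.sum_eq_zero fun T hT => if_neg fun h => hj ?_)) ?_
      · refine le_trans ?_ (mem_filter.1 hT).2.2
        exact_mod_cast h.1
      · rw [hX]
        exact mul_nonneg (by positivity) (add_nonneg (mul_nonneg zero_le_two (Real.exp_nonneg _)) (mul_nonneg (div_nonneg zero_le_one (pow_nonneg (by linarith) 6)) hI0))
  refine (hstep.trans (Finset.sum_le_sum hper)).trans ?_
  rw [Finset.sum_const, Finset.card_range, nsmul_eq_mul]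
  have hJle : (Jm : ℝ) ≤ 2 * N ^ 2 := by
    rw [hJm]
    push_cast
    have := Nat.floor_le (show 0 ≤ frac r * Γ by positivity)
    nlinarith [mul_le_mul_of_nonneg_right (frac_le_one r) hΓ0]
  calc (Jm : ℝ) * X ≤ 2 * N ^ 2 * (1600 * (r:ℝ) ^ 2 *
        (2 * Real.exp (-(N / 512)) + 1 / N ^ 6 * N ^ 2)) := by
        refine mul_le_mul hJle ?_ (by rw [hX]; exact mul_nonneg (by positivity) (add_nonneg (mul_nonneg zero_le_two (Real.exp_nonneg _)) (mul_nonneg (div_nonneg zero_le_one (pow_nonneg (by linarith) 6)) hI0))) (by positivity)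
        rw [hX]
        gcongr
    _ = 3200 * (r:ℝ) ^ 2 * (2 * (N ^ 2 * Real.exp (-(N / 512))) + 1 / N ^ 2) := by
        field_simp
        ring
    _ ≤ e / 4 := hfin

lemma ratio_bound {r : ℕ} (hr : 2 ≤ r) {p l N : ℝ} (hpq : 0 < p * (1 - p))
    (hl : l = Real.log (16 / (p * (1 - p)))) (hl2 : 2 ≤ l) (hN0 : 0 < N) :
    N ^ ((r:ℝ) / ((r:ℝ) - 1)) * (p * (1 - p)) ≤ 64 * level r N l := by
  set α := (r:ℝ) / ((r:ℝ) - 1) with hα
  set Γ := level r N l with hΓ
  have hNα0 : 0 ≤ N ^ α := rpow_nonneg hN0.le _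
  have hΓeq : Γ = N ^ α / l ^ α := Real.div_rpow hN0.le (by linarith) α
  have hlα : l ^ α ≤ l ^ 2 := by
    rw [← rpow_natCast l 2]
    exact rpow_le_rpow_of_exponent_le (by linarith) (by push_cast; exact expo_le_two hr)
  have hlα0 : 0 < l ^ α := rpow_pos_of_pos (by linarith) _
  have hlpq : l ^ 2 * (p * (1 - p)) ≤ 64 := by
    set y := Real.sqrt (16 / (p * (1 - p))) with hy
    have hy2 : y ^ 2 = 16 / (p * (1 - p)) := Real.sq_sqrt (by positivity)
    have hy0 : 0 < y := Real.sqrt_pos.2 (by positivity)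
    have : l ≤ 2 * y := by
      rw [hl, ← hy2, Real.log_pow]
      have := Real.log_le_sub_one_of_pos hy0
      push_cast
      linarith
    calc l ^ 2 * (p * (1 - p)) ≤ (2 * y) ^ 2 * (p * (1 - p)) := by gcongr
      _ = 64 := by rw [mul_pow, hy2, mul_assoc, div_mul_cancel₀ _ hpq.ne']; norm_num
  rw [hΓeq, mul_div_assoc', le_div_iff₀ hlα0]
  calc N ^ α * (p * (1 - p)) * l ^ α ≤ N ^ α * (p * (1 - p)) * l ^ 2 := by gcongr
    _ = N ^ α * (l ^ 2 * (p * (1 - p))) := by ring
    _ ≤ N ^ α * 64 := by gcongr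
    _ = 64 * N ^ α := mul_comm _ _

lemma split_weight {β : Type*} [DecidableEq β] (G : Finset β) (w : Finset β → ℝ)
    (hw : ∀ T, 0 ≤ w T) {a : ℝ} (ha : 0 < a) :
    ∑ T ∈ G.powerset, w T ≤ w ∅
      + ∑ T ∈ G.powerset.filter (fun T => 1 ≤ T.card ∧ (T.card : ℝ) ≤ a), w T
      + (∑ T ∈ G.powerset, (T.card : ℝ) * w T) / a := by
  have hterm : ∀ T ∈ G.powerset, w T ≤ (if T = ∅ then w T else 0)
      + (if 1 ≤ T.card ∧ (T.card : ℝ) ≤ a then w T else 0) + (T.card : ℝ) * w T / a := by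
    intro T _
    have h3 : 0 ≤ (T.card : ℝ) * w T / a := div_nonneg (mul_nonneg (Nat.cast_nonneg _) (hw T)) ha.le
    have h2 : 0 ≤ if 1 ≤ T.card ∧ (T.card : ℝ) ≤ a then w T else 0 := by
      split_ifs
      · exact hw T
      · exact le_rfl
    by_cases hT : T = ∅
    · rw [if_pos hT]
      linarith
    have hT1 : 1 ≤ T.card := Finset.card_pos.2 (Finset.nonempty_iff_ne_empty.2 hT)
    rw [if_neg hT]
    by_cases hle : (T.card : ℝ) ≤ a
    · rw [if_pos ⟨hT1, hle⟩]
      linarith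
    · rw [if_neg fun h => hle h.2, zero_add, zero_add, le_div_iff₀ ha, mul_comm (w T)]
      exact mul_le_mul_of_nonneg_right (not_le.1 hle).le (hw T)
  refine (Finset.sum_le_sum hterm).trans (le_of_eq ?_)
  rw [Finset.sum_add_distrib, Finset.sum_add_distrib, Finset.sum_ite_eq', Finset.sum_div,
    ← Finset.sum_filter, if_pos (Finset.empty_mem_powerset G)]

lemma mass_above {e μ low I a : ℝ} (he : 0 < e) (he2 : e < 1 / 2) (he1 : e ≤ μ)
    (he2' : μ ≤ 1 - e) (hlow : low ≤ e / 4) (hsplit : μ ≤ μ ^ 2 + low + I / a) (ha : 0 < a) :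
    a * (e / 4) ≤ I := by
  have hvar : e / 2 ≤ μ - μ ^ 2 := by nlinarith
  have : e / 4 ≤ I / a := by linarith
  rw [le_div_iff₀ ha] at this
  linarith

/-- The derivative of the probability of a monotone invariant property is large. -/
lemma deriv_lower {r : ℕ} (hr : 2 ≤ r) {e : ℝ} (he : 0 < e) (he2 : e < 1 / 2) :
    ∃ c : ℝ, 0 < c ∧ ∀ᶠ n : ℕ in atTop, 2 ≤ n ∧ 4 ≤ Real.log n ∧
      ∀ f : Finset (Finset (Fin n)) → ℝ, (∀ x, f x = 0 ∨ f x = 1) →
      (∀ (τ : Equiv.Perm (Fin n)), ∀ x ⊆ univ.powersetCard r, f (mapH τ x) = f x) →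
      (∀ x, x ⊆ univ.powersetCard r → ∀ i ∈ univ.powersetCard r,
        f (x.erase i) ≤ f (insert i x)) →
      ∀ p : ℝ, 1 / Real.log n ^ 3 ≤ p → p ≤ 1 - 1 / Real.log n ^ 3 →
        e ≤ Ex p (univ.powersetCard r) f → Ex p (univ.powersetCard r) f ≤ 1 - e →
        c * Real.log n ^ ((r:ℝ) / ((r:ℝ) - 1)) ≤
          ∑ i ∈ univ.powersetCard r,
            Ex p (univ.powersetCard r) (fun x => f (insert i x) - f (x.erase i)) := by
  have hε := frac_pos hr
  refine ⟨frac r * e / 256, by positivity, ?_⟩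
  filter_upwards [eventually_conditions hr (δ := e / 4) (by linarith)] with n
    ⟨hn2, hN4, hN192, hNeta, hNlog, hbig, hLL4, hfin⟩
  refine ⟨hn2, hN4, fun f hf hinv hmono p hp1 hp2 he1 he2' => ?_⟩
  set N := Real.log n with hN
  set G : Finset (Finset (Fin n)) := univ.powersetCard r with hG
  set α := (r:ℝ) / ((r:ℝ) - 1) with hα
  have hN0 : 0 < N := by linarith
  have ha0 : 0 < 1 / N ^ 3 := by positivity
  have h0 : 0 < p := by linarith
  have h1 : p < 1 := by linarith
  have hpq : 0 < p * (1 - p) := mul_pos h0 (by linarith)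
  have hpq4 : p * (1 - p) ≤ 1 / 4 := by nlinarith [sq_nonneg (p - 1 / 2)]
  have hpqlow : 1 / N ^ 3 / 2 ≤ p * (1 - p) := by
    rcases le_total p (1 / 2) with h | h <;> nlinarith
  set l := Real.log (16 / (p * (1 - p))) with hl
  have hl2 : 2 ≤ l := by
    rw [hl, Real.le_log_iff_exp_le (by positivity), le_div_iff₀ hpq]
    have : Real.exp 2 ≤ 9 := by
      have := Real.exp_one_lt_d9
      rw [show (2:ℝ) = 1 + 1 by norm_num, Real.exp_add]
      nlinarith [Real.exp_pos 1]
    nlinarith [mul_le_mul this hpq4 hpq.le (by norm_num : (0:ℝ) ≤ 9)]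
  have hl5 : l ≤ 5 * Real.log N := by
    have h32 : 16 / (p * (1 - p)) ≤ 32 * N ^ 3 := by
      rw [div_le_iff₀ hpq]
      calc (16:ℝ) = 32 * N ^ 3 * (1 / N ^ 3 / 2) := by field_simp; norm_num
        _ ≤ _ := by gcongr
    refine (Real.log_le_log (by positivity) h32).trans ?_
    rw [Real.log_mul (by norm_num) (by positivity), Real.log_pow]
    have : Real.log 32 ≤ 5 := by
      rw [show (32:ℝ) = 2 ^ (5:ℕ) by norm_num, Real.log_pow]
      have := Real.log_two_lt_d9
      push_cast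
      linarith
    push_cast
    linarith
  have hlN : 192 * l ≤ N := by linarith
  have hNl : 1 ≤ N / l := by
    rw [le_div_iff₀ (by linarith)]
    linarith
  set D := ∑ i ∈ G, Ex p G (fun x => f (insert i x) - f (x.erase i)) with hD
  set I := ∑ T ∈ G.powerset, (T.card : ℝ) * coef p G f T ^ 2 with hI
  have hID : I = p * (1 - p) * D := influence_eq_deriv h0 h1 hf hmono
  have hI0 : 0 ≤ I := Finset.sum_nonneg fun _ _ => by positivity
  have hD0 : 0 ≤ D := nonneg_of_mul_nonneg_right (hID ▸ hI0) hpq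
  have hNα : N ^ α ≤ N ^ 2 := by
    rw [← rpow_natCast N 2]
    exact rpow_le_rpow_of_exponent_le (by linarith) (by push_cast; exact expo_le_two hr)
  have hNα0 : 0 ≤ N ^ α := rpow_nonneg hN0.le _
  rcases lt_or_ge (N ^ 2) I with hIbig | hIsmall
  · calc frac r * e / 256 * N ^ α ≤ 1 * N ^ 2 := by
          refine mul_le_mul ?_ hNα hNα0 zero_le_one
          nlinarith [frac_le_one r]
      _ ≤ I := by linarith
      _ ≤ D := by rw [hID]; exact mul_le_of_le_one_left hD0 (by linarith)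
  set Γ := level r N l with hΓ
  have hΓ0 : 0 < Γ := rpow_pos_of_pos (by linarith) _
  have hΓN : Γ ≤ N ^ 2 := (level_le_sq hr hNl).trans (by
    gcongr
    exact div_le_self hN0.le (by linarith))
  set low := ∑ T ∈ G.powerset.filter
    (fun T => 1 ≤ T.card ∧ (T.card : ℝ) ≤ frac r * Γ), coef p G f T ^ 2 with hlowdef
  have hlow : low ≤ e / 4 := low_weight hr hn2 h0 h1 hf hinv hl hN hl2 (by linarith) hlN
    (by linarith) hNlog hbig hfin hIsmall hΓN hΓ0.le
  have hempty : coef p G f ∅ = Ex p G f := by simp [coef, phi]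
  have hpars := parseval (G := G) h0 h1 f
  rw [Ex_congr (h := f) fun x _ => by rcases hf x with h | h <;> simp [h]] at hpars
  have hsplit : ∑ T ∈ G.powerset, coef p G f T ^ 2
      ≤ coef p G f ∅ ^ 2 + low + I / (frac r * Γ) :=
    split_weight G (fun T => coef p G f T ^ 2) (fun _ => sq_nonneg _) (mul_pos hε hΓ0)
  rw [hpars, hempty] at hsplit
  have hIlow : frac r * Γ * (e / 4) ≤ I :=
    mass_above he he2 he1 he2' hlow hsplit (mul_pos hε hΓ0)
  have hratio : N ^ α * (p * (1 - p)) ≤ 64 * Γ := ratio_bound hr hpq hl hl2 hN0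
  refine le_of_mul_le_mul_right ?_ hpq
  calc frac r * e / 256 * N ^ α * (p * (1 - p))
      = frac r * e / 256 * (N ^ α * (p * (1 - p))) := by ring
    _ ≤ frac r * e / 256 * (64 * Γ) := by gcongr
    _ = frac r * Γ * (e / 4) := by ring
    _ ≤ I := hIlow
    _ = D * (p * (1 - p)) := by rw [hID, mul_comm]

/-- The threshold width bound. -/
theorem width_bound {r : ℕ} (hr : 2 ≤ r) {e : ℝ} (he : 0 < e) (he2 : e < 1 / 2) :
    ∃ C : ℝ, ∀ n : ℕ, r ≤ n → ∀ P : Finset (Finset (Finset (Fin n))),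
      (∀ H ∈ P, H ⊆ univ.powersetCard r) →
      (∀ σ : Equiv.Perm (Fin n), ∀ H ∈ P, H.image (fun E => E.image σ) ∈ P) →
      (∀ H ∈ P, ∀ H' ⊆ univ.powersetCard r, H ⊆ H' → H' ∈ P) →
      P.Nonempty → P ≠ ((univ : Finset (Fin n)).powersetCard r).powerset →
      sInf {p : ℝ | p ∈ Set.Icc 0 1 ∧
          1 - e ≤ ∑ H ∈ P, p ^ H.card * (1 - p) ^ (n.choose r - H.card)}
        - sInf {p : ℝ | p ∈ Set.Icc 0 1 ∧
          e ≤ ∑ H ∈ P, p ^ H.card * (1 - p) ^ (n.choose r - H.card)}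
        ≤ C * Real.log n ^ (-((r:ℝ) / ((r:ℝ) - 1))) := by
  obtain ⟨c, hc, hev⟩ := deriv_lower hr he he2
  obtain ⟨n0, hn0⟩ := eventually_atTop.1 hev
  set α := (r:ℝ) / ((r:ℝ) - 1) with hα
  refine ⟨max (2 + 1 / c) (Real.log (max n0 2 : ℕ) ^ α), fun n hrn P hPsub hPinv hPup hPne hPall =>
    ?_⟩
  set G : Finset (Finset (Fin n)) := univ.powersetCard r with hG
  have hGc : G.card = n.choose r := by rw [hG, Finset.card_powersetCard]; simp
  set f : Finset (Finset (Fin n)) → ℝ := fun x => if x ∈ P then 1 else 0 with hfdef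
  have hf : ∀ x, f x = 0 ∨ f x = 1 := fun x => by
    simp only [hfdef]
    split_ifs <;> simp
  have hinv : ∀ (τ : Equiv.Perm (Fin n)), ∀ x ⊆ G, f (mapH τ x) = f x := by
    intro τ x _
    by_cases hx : x ∈ P
    · simp [hfdef, hx, mapH, hPinv τ x hx]
    · simp only [hfdef, hx, if_false, ite_eq_right_iff]
      intro hmem
      have := hPinv τ.symm _ hmem
      exact absurd (mapH_symm τ x ▸ this) hx
  have hmono : ∀ x, x ⊆ G → ∀ i ∈ G, f (x.erase i) ≤ f (insert i x) := by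
    intro x hx i hi
    by_cases h : x.erase i ∈ P
    · simp [hfdef, h, hPup _ h _ (Finset.insert_subset hi hx)
        ((Finset.erase_subset i x).trans (Finset.subset_insert i x))]
    · simp only [hfdef, h, if_false]
      split_ifs <;> norm_num
  have hμ : ∀ p : ℝ, ∑ H ∈ P, p ^ H.card * (1 - p) ^ (n.choose r - H.card) = Ex p G f := by
    intro p
    simp only [Ex, hfdef, mul_ite, mul_one, mul_zero]
    rw [Finset.sum_ite_mem, Finset.inter_eq_right.2 fun H hH => mem_powerset.2 (hPsub H hH)]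
    exact Finset.sum_congr rfl fun H hH => by rw [wt_eq (hPsub H hH), hGc]
  simp only [hμ]
  set F : ℝ → ℝ := fun p => Ex p G f with hF
  set D : ℝ → ℝ := fun p => ∑ i ∈ G, Ex p G (fun x => f (insert i x) - f (x.erase i)) with hDdef
  have hFd : ∀ p, HasDerivAt F (D p) p := fun p => russo G f p
  have hFc : Continuous F := continuous_iff_continuousAt.2 fun p => (hFd p).continuousAt
  have hFmono : ∀ a b, 0 ≤ a → a ≤ b → b ≤ 1 → F a ≤ F b := by
    intro a b ha hab hb
    rcases hab.eq_or_lt with rfl | hlt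
    · exact le_rfl
    obtain ⟨ξ, hξ, hξe⟩ := exists_hasDerivAt_eq_slope F D hlt hFc.continuousOn fun x _ => hFd x
    have : 0 ≤ D ξ := Finset.sum_nonneg fun i hi => by
      have h := Ex_mono (p := ξ) (G := G) (by linarith [hξ.1]) (by linarith [hξ.2])
        (g := fun _ => (0:ℝ)) (h := fun x => f (insert i x) - f (x.erase i))
        (fun x hx => sub_nonneg.2 (hmono x hx i hi))
      rwa [Ex_const] at h
    rw [hξe] at this
    have := (div_nonneg_iff.1 this)
    rcases this with h | h <;> linarith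
  have hF01 : ∀ p, 0 ≤ p → p ≤ 1 → 0 ≤ F p ∧ F p ≤ 1 := by
    intro p hp hp1
    constructor
    · have h := Ex_mono (p := p) (G := G) hp hp1 (g := fun _ => (0:ℝ)) (h := f)
        (fun x _ => by rcases hf x with h | h <;> simp [h])
      rwa [Ex_const] at h
    · have h := Ex_mono (p := p) (G := G) hp hp1 (g := f) (h := fun _ => (1:ℝ))
        (fun x _ => by rcases hf x with h | h <;> simp [h])
      rwa [Ex_const] at h
  have hGP : G ∈ P := by
    obtain ⟨H, hH⟩ := hPne
    exact hPup H hH G (subset_refl G) (hPsub H hH)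
  have hF1 : F 1 = 1 := by
    simp only [hF, Ex]
    rw [Finset.sum_eq_single G]
    · simp [wt_eq (subset_refl G), hfdef, hGP]
    · intro x hx hxG
      rw [wt_eq (mem_powerset.1 hx), sub_self, zero_pow]
      · simp
      · have := Finset.card_lt_card (lt_of_le_of_ne (mem_powerset.1 hx) hxG)
        omega
    · exact fun h => absurd (Finset.mem_powerset_self G) h
  set S : ℝ → Set ℝ := fun a => {p : ℝ | p ∈ Set.Icc 0 1 ∧ a ≤ Ex p G f} with hS
  have hSne : ∀ a, a ≤ 1 → (S a).Nonempty := fun a ha =>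
    ⟨1, ⟨zero_le_one, le_rfl⟩, ha.trans hF1.ge⟩
  have hSbdd : ∀ a, BddBelow (S a) := fun a => ⟨0, fun x hx => hx.1.1⟩
  have hS0 : ∀ a, a ≤ 1 → 0 ≤ sInf (S a) := fun a ha =>
    le_csInf (hSne a ha) fun x hx => hx.1.1
  have hS1 : ∀ a, a ≤ 1 → sInf (S a) ≤ 1 := fun a ha =>
    csInf_le (hSbdd a) ⟨⟨zero_le_one, le_rfl⟩, ha.trans hF1.ge⟩
  show sInf (S (1 - e)) - sInf (S e) ≤ _
  set P1 := sInf (S e) with hP1
  set P2 := sInf (S (1 - e)) with hP2
  have hP1' : 0 ≤ P1 := hS0 e (by linarith)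
  have hP2' : P2 ≤ 1 := hS1 (1 - e) (by linarith)
  have hlogpos : 0 < Real.log n := Real.log_pos (by exact_mod_cast (by omega : 1 < n))
  set Nα := Real.log n ^ α with hNα
  have hNαpos : 0 < Nα := rpow_pos_of_pos hlogpos _
  rw [Real.rpow_neg hlogpos.le, ← hNα, ← div_eq_mul_inv, le_div_iff₀ hNαpos]
  rcases lt_or_ge n n0 with hsmall | hlarge
  · calc (P2 - P1) * Nα ≤ 1 * Nα := by gcongr; linarith
      _ ≤ Real.log (max n0 2 : ℕ) ^ α := by
          rw [one_mul]
          exact rpow_le_rpow hlogpos.le (Real.log_le_log (by exact_mod_cast (by omega : 0 < n))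
            (by exact_mod_cast hsmall.le.trans (le_max_left _ _))) (expo_pos hr).le
      _ ≤ _ := le_max_right _ _
  obtain ⟨-, hN4, hkey⟩ := hn0 n hlarge
  refine le_trans ?_ (le_max_left _ _)
  set a0 := 1 / Real.log n ^ 3 with ha0
  have ha0pos : 0 < a0 := by positivity
  have ha0N : a0 * Nα ≤ 1 := by
    rw [ha0, div_mul_eq_mul_div, one_mul, div_le_one (by positivity), hNα,
      ← rpow_natCast (Real.log n) 3]
    refine rpow_le_rpow_of_exponent_le (by linarith) ?_
    have := expo_le_two hr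
    push_cast
    linarith
  set u := max P1 a0 with hu
  set v := min P2 (1 - a0) with hv
  have hgap : (v - u) * Nα ≤ 1 / c := by
    rcases le_or_gt v u with hvu | huv
    · exact le_trans (mul_nonpos_of_nonpos_of_nonneg (by linarith) hNαpos.le) (by positivity)
    obtain ⟨ξ, hξ, hξe⟩ := exists_hasDerivAt_eq_slope F D huv hFc.continuousOn fun x _ => hFd x
    have hu1 : P1 ≤ u := le_max_left _ _
    have hu2 : a0 ≤ u := le_max_right _ _
    have hv1 : v ≤ P2 := min_le_left _ _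
    have hv2 : v ≤ 1 - a0 := min_le_right _ _
    have hlo : e ≤ F ξ := by
      obtain ⟨p', hp', hp'lt⟩ := exists_lt_of_csInf_lt (hSne e (by linarith))
        (show sInf (S e) < ξ by linarith [hξ.1])
      exact hp'.2.trans (hFmono p' ξ hp'.1.1 hp'lt.le (by linarith [hξ.2]))
    have hhi : F ξ ≤ 1 - e := by
      by_contra hne
      have : P2 ≤ ξ := csInf_le (hSbdd _)
        ⟨⟨by linarith [hξ.1], by linarith [hξ.2]⟩, (not_le.1 hne).le⟩
      linarith [hξ.2]
    have hD := hkey f hf hinv hmono ξ (by linarith [hξ.1]) (by linarith [hξ.2]) hlo hhi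
    change c * Nα ≤ D ξ at hD
    rw [hξe, le_div_iff₀ (by linarith)] at hD
    have h01u := (hF01 u (by linarith) (by linarith)).1
    have h01v := (hF01 v (by linarith) (by linarith)).2
    rw [le_div_iff₀ hc]
    nlinarith
  have hv' : P2 ≤ v + a0 := by
    rcases min_choice P2 (1 - a0) with h | h <;> rw [hv, h] <;> linarith
  have hu' : u ≤ P1 + a0 := max_le (by linarith) (by linarith)
  calc (P2 - P1) * Nα ≤ ((v - u) + 2 * a0) * Nα := by gcongr; linarith
    _ = (v - u) * Nα + 2 * (a0 * Nα) := by ring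
    _ ≤ 2 + 1 / c := by linarith

end Vale.Agent.P063
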